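import Vale.Agent.Lib.P050.Harris

namespace Vale.Agent.Lib.P050

open Finset

/-- counting pairs satisfying a relation as a sum over the first coordinate -/
lemma card_rel_eq_sum {α β : Type*} [Fintype α] [Fintype β] (S : α → β → Prop)
    [∀ a b, Decidable (S a b)] :
    (univ.filter (fun ab : α × β => S ab.1 ab.2)).card
      = ∑ a, (univ.filter (fun b => S a b)).card := by
  rw [Finset.card_filter, Fintype.sum_prod_type]
  apply Finset.sum_congr rfl
  intro a _
  rw [Finset.card_filter]

/-- counting pairs satisfying a relation as a sum over the second coordinate -/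
lemma card_rel_eq_sum' {α β : Type*} [Fintype α] [Fintype β] (S : α → β → Prop)
    [∀ a b, Decidable (S a b)] :
    (univ.filter (fun ab : α × β => S ab.1 ab.2)).card
      = ∑ b, (univ.filter (fun a => S a b)).card := by
  rw [Finset.card_filter, Fintype.sum_prod_type_right]
  apply Finset.sum_congr rfl
  intro b _
  rw [Finset.card_filter]

section Bigraph

variable {X Y P Q : Type*} [Fintype X] [Fintype Y] [Fintype P] [Fintype Q]
  [DecidableEq X] [DecidableEq Y] [DecidableEq P] [DecidableEq Q]

/-- number of maps `ψ` all of whose values at the marked points lie in a fixed set -/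
lemma card_maps_marked (B : Y → Prop) [DecidablePred B] (T : Finset Q) :
    (univ.filter (fun ψ : Y → Q => ∀ y, B y → ψ y ∈ T)).card
      = ∏ y : Y, (if B y then T.card else Fintype.card Q) := by
  have h : (univ.filter (fun ψ : Y → Q => ∀ y, B y → ψ y ∈ T))
      = Fintype.piFinset (fun y => if B y then T else univ) := by
    ext ψ
    simp only [mem_filter, mem_univ, true_and, Fintype.mem_piFinset]
    constructor
    · intro h y
      by_cases hy : B y
      · simp [hy, h y hy]
      · simp [hy]
    · intro h y hy
      have := h y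
      simpa [hy] using this
  rw [h, Fintype.card_piFinset]
  apply Finset.prod_congr rfl
  intro y _
  by_cases hy : B y <;> simp [hy]

/-- number of maps `φ` with `φ x` in a prescribed set for each `x` -/
lemma card_maps_pi (T : X → Finset P) :
    (univ.filter (fun φ : X → P => ∀ x, φ x ∈ T x)).card = ∏ x : X, (T x).card := by
  have h : (univ.filter (fun φ : X → P => ∀ x, φ x ∈ T x)) = Fintype.piFinset T := by
    ext φ
    simp [Fintype.mem_piFinset]
  rw [h, Fintype.card_piFinset]


/-- Sidorenko's inequality for a bipartite pattern `A` on `X × Y` against a bipartite target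
relation `R` on `P × Q` whose columns `{p | R p q}` are totally ordered by inclusion. -/
theorem bigraph_sidorenko [Nonempty P] [Nonempty Q]
    (A : X → Y → Prop) [∀ x y, Decidable (A x y)]
    (R : P → Q → Prop) [∀ p q, Decidable (R p q)]
    (hnest : ∀ q q' : Q, (∀ p, R p q → R p q') ∨ (∀ p, R p q' → R p q)) :
    (((univ.filter (fun pq : P × Q => R pq.1 pq.2)).card : ℝ)
        / ((Fintype.card P : ℝ) * Fintype.card Q))
        ^ (univ.filter (fun xy : X × Y => A xy.1 xy.2)).card
      ≤ ((univ.filter (fun φψ : (X → P) × (Y → Q) =>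
            ∀ x y, A x y → R (φψ.1 x) (φψ.2 y))).card : ℝ)
          / ((Fintype.card P : ℝ) ^ Fintype.card X * (Fintype.card Q : ℝ) ^ Fintype.card Y) := by
  classical
  have hP : (0 : ℝ) < Fintype.card P := by exact_mod_cast Fintype.card_pos
  have hQ : (0 : ℝ) < Fintype.card Q := by exact_mod_cast Fintype.card_pos
  -- a linear order on `Q` refining inclusion of columns
  let degQ : Q → ℕ := fun q => (univ.filter (fun p => R p q)).card
  let key : Q → ℕ ×ₗ Fin (Fintype.card Q) := fun q => toLex (degQ q, Fintype.equivFin Q q)
  have hkey : Function.Injective key := by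
    intro q q' h
    have h2 : (ofLex (key q)).2 = (ofLex (key q')).2 := by rw [h]
    exact (Fintype.equivFin Q).injective h2
  let _ : LinearOrder Q := LinearOrder.lift' key hkey
  have hle : ∀ q q' : Q, q ≤ q' → ∀ p, R p q → R p q' := by
    intro q q' hqq'
    have h1 : key q ≤ key q' := hqq'
    have h2 : degQ q ≤ degQ q' := by
      rcases Prod.Lex.le_iff.mp h1 with h | h
      · exact le_of_lt h
      · exact le_of_eq h.1
    rcases hnest q q' with h | h
    · exact h
    · have hsub : univ.filter (fun p => R p q') ⊆ univ.filter (fun p => R p q) := by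
        intro p hp
        simp only [mem_filter, mem_univ, true_and] at hp ⊢
        exact h p hp
      have heq := Finset.eq_of_subset_of_card_le hsub h2
      intro p hp
      have hmem : p ∈ univ.filter (fun p => R p q) := by simp [hp]
      rw [← heq] at hmem
      simpa using hmem
  -- the functions to which Harris' inequality is applied
  let cnt : X → (Y → Q) → ℕ := fun x ψ => (univ.filter (fun p => ∀ y, A x y → R p (ψ y))).card
  let F : X → (Y → Q) → ℝ := fun x ψ => (cnt x ψ : ℝ) / Fintype.card P
  have hF0 : ∀ x ∈ (univ : Finset X), ∀ ψ, 0 ≤ F x ψ := by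
    intro x _ ψ
    exact div_nonneg (Nat.cast_nonneg _) hP.le
  have hFmono : ∀ x ∈ (univ : Finset X), Monotone (F x) := by
    intro x _ ψ ψ' hψ
    apply div_le_div_of_nonneg_right _ hP.le
    have : cnt x ψ ≤ cnt x ψ' := by
      apply Finset.card_le_card
      intro p hp
      simp only [mem_filter, mem_univ, true_and] at hp ⊢
      intro y hy
      exact hle _ _ (hψ y) p (hp y hy)
    exact_mod_cast this
  have harris := harris_prod (L := Y → Q) (univ : Finset X) F hF0 hFmono
  have hcardL : (Fintype.card (Y → Q) : ℝ) = (Fintype.card Q : ℝ) ^ Fintype.card Y := by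
    rw [Fintype.card_fun]; push_cast; rfl
  -- right-hand side of Harris: the normalised number of pairs
  have hM : (∑ ψ : Y → Q, ∏ x, F x ψ) =
      ((univ.filter (fun φψ : (X → P) × (Y → Q) =>
            ∀ x y, A x y → R (φψ.1 x) (φψ.2 y))).card : ℝ) / (Fintype.card P : ℝ) ^ Fintype.card X := by
    have h1 : ∀ ψ : Y → Q, ∏ x, F x ψ
        = ((univ.filter (fun φ : X → P => ∀ x y, A x y → R (φ x) (ψ y))).card : ℝ)
            / (Fintype.card P : ℝ) ^ Fintype.card X := by
      intro ψ
      have h2 : (univ.filter (fun φ : X → P => ∀ x y, A x y → R (φ x) (ψ y)))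
          = (univ.filter (fun φ : X → P =>
              ∀ x, φ x ∈ univ.filter (fun p => ∀ y, A x y → R p (ψ y)))) := by
        apply Finset.filter_congr
        intro φ _
        simp
      rw [h2, card_maps_pi]
      simp only [F, cnt]
      rw [Finset.prod_div_distrib, Finset.prod_const, Finset.card_univ]
      push_cast
      rfl
    rw [Finset.sum_congr rfl (fun ψ _ => h1 ψ), ← Finset.sum_div]
    congr 1
    have h3 := card_rel_eq_sum' (fun (φ : X → P) (ψ : Y → Q) => ∀ x y, A x y → R (φ x) (ψ y))
    rw [h3]
    push_cast
    rfl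
  -- left-hand side of Harris: a power mean of the row degrees
  let degP : P → ℕ := fun p => (univ.filter (fun q => R p q)).card
  let dX : X → ℕ := fun x => (univ.filter (fun y => A x y)).card
  have hrow : ∀ x : X, (∑ ψ : Y → Q, F x ψ) / Fintype.card (Y → Q)
      = ∑ p : P, (1 / (Fintype.card P : ℝ)) * ((degP p : ℝ) / Fintype.card Q) ^ dX x := by
    intro x
    have h1 : (∑ ψ : Y → Q, (cnt x ψ : ℝ))
        = ∑ p : P, ∏ y : Y, (if A x y then (degP p : ℝ) else Fintype.card Q) := by
      have ha := card_rel_eq_sum' (fun (p : P) (ψ : Y → Q) => ∀ y, A x y → R p (ψ y))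
      have hb := card_rel_eq_sum (fun (p : P) (ψ : Y → Q) => ∀ y, A x y → R p (ψ y))
      have hc : ∀ p : P, (univ.filter (fun ψ : Y → Q => ∀ y, A x y → R p (ψ y))).card
          = ∏ y : Y, (if A x y then degP p else Fintype.card Q) := by
        intro p
        have h2 : (univ.filter (fun ψ : Y → Q => ∀ y, A x y → R p (ψ y)))
            = (univ.filter (fun ψ : Y → Q =>
                ∀ y, A x y → ψ y ∈ univ.filter (fun q => R p q))) := by
          apply Finset.filter_congr
          intro ψ _
          simp
        rw [h2, card_maps_marked]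
      have hd : (∑ ψ : Y → Q, cnt x ψ)
          = ∑ p : P, ∏ y : Y, (if A x y then degP p else Fintype.card Q) := by
        rw [← Finset.sum_congr rfl (fun p _ => hc p), ← hb, ha]
      have he : ((∑ ψ : Y → Q, cnt x ψ : ℕ) : ℝ)
          = ((∑ p : P, ∏ y : Y, (if A x y then degP p else Fintype.card Q) : ℕ) : ℝ) := by
        rw [hd]
      push_cast at he
      exact he
    have h2 : (∑ ψ : Y → Q, F x ψ) = (∑ ψ : Y → Q, (cnt x ψ : ℝ)) / Fintype.card P := by
      simp only [F]
      rw [Finset.sum_div]
    rw [h2, h1, hcardL, Finset.sum_div, Finset.sum_div]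
    apply Finset.sum_congr rfl
    intro p _
    have h3 : (∏ y : Y, (if A x y then (degP p : ℝ) else Fintype.card Q))
        = ((degP p : ℝ) / Fintype.card Q) ^ dX x * (Fintype.card Q : ℝ) ^ Fintype.card Y := by
      have h4 : ∀ y : Y, (if A x y then (degP p : ℝ) else Fintype.card Q)
          = (if A x y then (degP p : ℝ) / Fintype.card Q else 1) * Fintype.card Q := by
        intro y
        by_cases hy : A x y
        · simp only [hy, if_true]; field_simp
        · simp [hy]
      rw [Finset.prod_congr rfl (fun y _ => h4 y), Finset.prod_mul_distrib, Finset.prod_const,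
        Finset.card_univ, Finset.prod_ite, Finset.prod_const, Finset.prod_const_one, mul_one]
    rw [h3]
    field_simp
  -- Jensen
  have hjensen : ∀ x : X,
      (((univ.filter (fun pq : P × Q => R pq.1 pq.2)).card : ℝ)
        / ((Fintype.card P : ℝ) * Fintype.card Q)) ^ dX x
      ≤ ∑ p : P, (1 / (Fintype.card P : ℝ)) * ((degP p : ℝ) / Fintype.card Q) ^ dX x := by
    intro x
    have hj := Real.pow_arith_mean_le_arith_mean_pow (univ : Finset P)
      (fun _ => 1 / (Fintype.card P : ℝ)) (fun p => (degP p : ℝ) / Fintype.card Q)
      (fun p _ => by positivity)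
      (by rw [Finset.sum_const, Finset.card_univ, nsmul_eq_mul]; field_simp)
      (fun p _ => by positivity) (dX x)
    have hmean : ∑ p : P, (1 / (Fintype.card P : ℝ)) * ((degP p : ℝ) / Fintype.card Q)
        = ((univ.filter (fun pq : P × Q => R pq.1 pq.2)).card : ℝ)
          / ((Fintype.card P : ℝ) * Fintype.card Q) := by
      rw [card_rel_eq_sum]
      push_cast
      rw [Finset.sum_div]
      apply Finset.sum_congr rfl
      intro p _
      simp only [degP]
      field_simp
    rw [hmean] at hj
    exact hj
  -- assemble
  have hexp : (univ.filter (fun xy : X × Y => A xy.1 xy.2)).card = ∑ x : X, dX x :=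
    card_rel_eq_sum A
  rw [hexp, ← Finset.prod_pow_eq_pow_sum]
  have hstep : ∏ x : X, (((univ.filter (fun pq : P × Q => R pq.1 pq.2)).card : ℝ)
        / ((Fintype.card P : ℝ) * Fintype.card Q)) ^ dX x
      ≤ ∏ x : X, ((∑ ψ : Y → Q, F x ψ) / Fintype.card (Y → Q)) := by
    apply Finset.prod_le_prod
    · intro x _
      positivity
    · intro x _
      rw [hrow x]
      exact hjensen x
  refine hstep.trans (harris.trans ?_)
  rw [hM, hcardL, div_div]

end Bigraph

end Vale.Agent.Lib.P050
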