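import Mathlib

namespace Vale.Agent.Lib.P050

open Finset

/-- The number of homomorphisms from `H` to `G`: maps of vertices sending edges to edges. -/
noncomputable def homCount {V W : Type} (H : SimpleGraph V) (G : SimpleGraph W) : ℕ :=
  Nat.card {f : V → W // ∀ u v, H.Adj u v → G.Adj (f u) (f v)}

/-- Sidorenko's inequality for `H`: `t(H,G) ≥ p(G)^|E(H)|` for every finite graph `G`
with at least one vertex. -/
def SidorenkoIneq {V : Type} (H : SimpleGraph V) : Prop :=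
  ∀ (W : Type) [Finite W] [Nonempty W] (G : SimpleGraph W),
    ((2 * (G.edgeSet.ncard : ℝ)) / (Nat.card W : ℝ) ^ 2) ^ H.edgeSet.ncard
      ≤ (homCount H G : ℝ) / (Nat.card W : ℝ) ^ Nat.card V

/-- The corona of `H` with a single vertex: a new pendant vertex `inr v` is attached to
every vertex `inl v` of `H`. -/
def corona {V : Type} (H : SimpleGraph V) : SimpleGraph (V ⊕ V) where
  Adj a b :=
    match a, b with
    | Sum.inl u, Sum.inl v => H.Adj u v
    | Sum.inl u, Sum.inr v => u = v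
    | Sum.inr u, Sum.inl v => u = v
    | Sum.inr _, Sum.inr _ => False
  symm := ⟨by
    rintro (u | u) (v | v) h
    · exact H.symm.symm _ _ h
    · exact Eq.symm h
    · exact Eq.symm h
    · exact h⟩
  loopless := ⟨by
    rintro (u | u) h
    · exact H.loopless.irrefl u h
    · exact h⟩

lemma corona_adj_inl_inl {V : Type} (H : SimpleGraph V) (u v : V) :
    (corona H).Adj (Sum.inl u) (Sum.inl v) ↔ H.Adj u v := Iff.rfl

lemma corona_adj_inl_inr {V : Type} (H : SimpleGraph V) (u v : V) :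
    (corona H).Adj (Sum.inl u) (Sum.inr v) ↔ u = v := Iff.rfl

lemma corona_adj_inr_inl {V : Type} (H : SimpleGraph V) (u v : V) :
    (corona H).Adj (Sum.inr u) (Sum.inl v) ↔ u = v := Iff.rfl

lemma corona_adj_inr_inr {V : Type} (H : SimpleGraph V) (u v : V) :
    (corona H).Adj (Sum.inr u) (Sum.inr v) ↔ False := Iff.rfl

/-- Twice the number of edges as a double sum of adjacency indicators. -/
lemma two_mul_ncard_edgeSet {U : Type} [Fintype U] (Γ : SimpleGraph U) [DecidableRel Γ.Adj] :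
    2 * (Γ.edgeSet.ncard : ℝ) = ∑ x, ∑ y, (if Γ.Adj x y then (1 : ℝ) else 0) := by
  classical
  have h1 : Γ.edgeSet.ncard = Γ.edgeFinset.card := by
    rw [← Set.ncard_coe_finset, SimpleGraph.coe_edgeFinset]
  have h2 := Γ.sum_degrees_eq_twice_card_edges
  have h3 : ∀ v, Γ.degree v = ∑ w, (if Γ.Adj v w then 1 else 0) := by
    intro v
    rw [← SimpleGraph.card_neighborFinset_eq_degree, SimpleGraph.neighborFinset_eq_filter,
      Finset.card_filter]
  have h4 : (2 * (Γ.edgeFinset.card : ℝ)) = ((∑ v, Γ.degree v : ℕ) : ℝ) := by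
    rw [h2]
    push_cast
    ring
  rw [h1, h4]
  push_cast
  refine Finset.sum_congr rfl (fun v _ => ?_)
  rw [h3 v]
  push_cast
  rfl

/-- Sums over the adjacent ordered pairs as indicator sums. -/
lemma sum_adjPairs {W : Type} [Fintype W] (G : SimpleGraph W) [DecidableRel G.Adj]
    (f : W → W → ℝ) :
    ∑ a : {p : W × W // G.Adj p.1 p.2}, f a.1.1 a.1.2
      = ∑ x, ∑ y, (if G.Adj x y then (1 : ℝ) else 0) * f x y := by
  rw [← Finset.sum_subtype (univ.filter (fun p : W × W => G.Adj p.1 p.2)) (by simp)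
      (fun p : W × W => f p.1 p.2),
    Finset.sum_filter, Fintype.sum_prod_type]
  refine Finset.sum_congr rfl (fun x _ => Finset.sum_congr rfl (fun y _ => ?_))
  by_cases h : G.Adj x y
  · simp [h]
  · simp [h]

/-- The graph on the adjacent ordered pairs of `G` in which two pairs are adjacent when
their first coordinates are adjacent in `G`. -/
def pairGraph {W : Type} (G : SimpleGraph W) : SimpleGraph {p : W × W // G.Adj p.1 p.2} :=
  SimpleGraph.comap (fun a => a.1.1) G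

lemma homCount_pairGraph {V W : Type} (H : SimpleGraph V) (G : SimpleGraph W) :
    homCount H (pairGraph G) = homCount (corona H) G := by
  unfold homCount
  refine Nat.card_congr ?_
  refine
    { toFun := fun ψ => ⟨fun s => Sum.elim (fun v => (ψ.1 v).1.1) (fun v => (ψ.1 v).1.2) s, ?_⟩
      invFun := fun Φ => ⟨fun v => ⟨(Φ.1 (Sum.inl v), Φ.1 (Sum.inr v)),
        Φ.2 (Sum.inl v) (Sum.inr v) ((corona_adj_inl_inr H v v).mpr rfl)⟩, ?_⟩
      left_inv := ?_
      right_inv := ?_ }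
  · rintro (u | u) (v | v) h
    · exact ψ.2 u v h
    · have h' : u = v := h
      subst h'
      exact (ψ.1 u).2
    · have h' : u = v := h
      subst h'
      exact (ψ.1 u).2.symm
    · exact False.elim h
  · intro u v h
    exact Φ.2 (Sum.inl u) (Sum.inl v) h
  · intro ψ
    apply Subtype.ext
    funext v
    apply Subtype.ext
    rfl
  · intro Φ
    apply Subtype.ext
    funext s
    cases s <;> rfl

lemma corona_ncard_edgeSet {V : Type} [Finite V] (H : SimpleGraph V) :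
    (corona H).edgeSet.ncard = H.edgeSet.ncard + Nat.card V := by
  classical
  have := Fintype.ofFinite V
  have h1 := two_mul_ncard_edgeSet (corona H)
  have h2 := two_mul_ncard_edgeSet H
  simp only [Fintype.sum_sum_type, corona_adj_inl_inl, corona_adj_inl_inr, corona_adj_inr_inl,
    corona_adj_inr_inr] at h1
  have h3 : (2 * ((corona H).edgeSet.ncard : ℝ))
      = 2 * (H.edgeSet.ncard : ℝ) + 2 * (Nat.card V : ℝ) := by
    rw [h1, h2, Nat.card_eq_fintype_card]
    simp [Finset.sum_add_distrib]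
    ring
  have h4 : ((corona H).edgeSet.ncard : ℝ) = ((H.edgeSet.ncard + Nat.card V : ℕ) : ℝ) := by
    push_cast
    linarith
  exact_mod_cast h4

lemma two_mul_ncard_edgeSet_pairGraph {W : Type} [Fintype W] (G : SimpleGraph W)
    [DecidableRel G.Adj] :
    2 * ((pairGraph G).edgeSet.ncard : ℝ)
      = ∑ x, ∑ x', (if G.Adj x x' then (1 : ℝ) else 0)
          * ((∑ y, (if G.Adj x y then (1 : ℝ) else 0))
              * (∑ y, (if G.Adj x' y then (1 : ℝ) else 0))) := by
  classical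
  rw [two_mul_ncard_edgeSet (pairGraph G)]
  have e1 : ∀ a : {p : W × W // G.Adj p.1 p.2},
      (∑ b : {p : W × W // G.Adj p.1 p.2}, (if (pairGraph G).Adj a b then (1 : ℝ) else 0))
        = ∑ x', (if G.Adj a.1.1 x' then (1 : ℝ) else 0)
            * (∑ y, (if G.Adj x' y then (1 : ℝ) else 0)) := by
    intro a
    have h := sum_adjPairs G (fun x' _ => (if G.Adj a.1.1 x' then (1 : ℝ) else 0))
    have h' : (∑ b : {p : W × W // G.Adj p.1 p.2},
          (if (pairGraph G).Adj a b then (1 : ℝ) else 0))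
        = ∑ b : {p : W × W // G.Adj p.1 p.2}, (if G.Adj a.1.1 b.1.1 then (1 : ℝ) else 0) :=
      Finset.sum_congr rfl (fun b _ => if_congr Iff.rfl rfl rfl)
    refine h'.trans (h.trans ?_)
    refine Finset.sum_congr rfl (fun x' _ => ?_)
    rw [Finset.mul_sum]
    refine Finset.sum_congr rfl (fun y _ => ?_)
    ring
  rw [Finset.sum_congr rfl (fun a _ => e1 a)]
  have h2 := sum_adjPairs G (fun x _ => ∑ x', (if G.Adj x x' then (1 : ℝ) else 0)
    * (∑ y, (if G.Adj x' y then (1 : ℝ) else 0)))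
  refine h2.trans ?_
  refine Finset.sum_congr rfl (fun x _ => ?_)
  rw [← Finset.sum_mul, Finset.mul_sum]
  refine Finset.sum_congr rfl (fun x' _ => ?_)
  ring

lemma am_gm_aux (p q l : ℝ) (hp : 0 < p) (hq : 0 < q) (hl : 0 ≤ l) :
    3 * l ^ 2 - l ^ 3 * p⁻¹ - l ^ 3 * q⁻¹ ≤ p * q := by
  have key : 3 * l ^ 2 * (p * q) ≤ p ^ 2 * q ^ 2 + l ^ 3 * (p + q) := by
    obtain ⟨u, hu, rfl⟩ : ∃ u : ℝ, 0 ≤ u ∧ u ^ 2 = p :=
      ⟨Real.sqrt p, Real.sqrt_nonneg p, Real.sq_sqrt hp.le⟩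
    obtain ⟨v, hv, rfl⟩ : ∃ v : ℝ, 0 ≤ v ∧ v ^ 2 = q :=
      ⟨Real.sqrt q, Real.sqrt_nonneg q, Real.sq_sqrt hq.le⟩
    have t1 : 0 ≤ u * v * (u * v - l) ^ 2 * (u * v + 2 * l) :=
      mul_nonneg (mul_nonneg (mul_nonneg hu hv) (sq_nonneg _))
        (add_nonneg (mul_nonneg hu hv) (mul_nonneg zero_le_two hl))
    have t2 : 0 ≤ l ^ 3 * (u - v) ^ 2 := mul_nonneg (pow_nonneg hl 3) (sq_nonneg _)
    nlinarith [t1, t2]
  have e : p * q - (3 * l ^ 2 - l ^ 3 * p⁻¹ - l ^ 3 * q⁻¹)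
      = (p ^ 2 * q ^ 2 + l ^ 3 * (p + q) - 3 * l ^ 2 * (p * q)) / (p * q) := by
    have hp' : p ≠ 0 := hp.ne'
    have hq' : q ≠ 0 := hq.ne'
    field_simp
    ring
  rw [← sub_nonneg, e]
  exact div_nonneg (by linarith) (mul_pos hp hq).le

/-- For a symmetric zero-one matrix `A` on a nonempty finite index set of size `n` with row
sums `d`, one has `(∑ d)^3 ≤ (∑_{x,x'} A x x' d x d x') n^2`. -/
lemma walk3_ineq {W : Type} [Fintype W] [Nonempty W] (A : W → W → ℝ)
    (hA01 : ∀ x y, A x y = 0 ∨ A x y = 1) (hsymm : ∀ x y, A x y = A y x) :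
    (∑ x, ∑ y, A x y) ^ 3
      ≤ (∑ x, ∑ x', A x x' * ((∑ y, A x y) * (∑ y, A x' y))) * (Fintype.card W : ℝ) ^ 2 := by
  classical
  have hnpos : (0 : ℝ) < (Fintype.card W : ℝ) := by exact_mod_cast Fintype.card_pos
  generalize hn : (Fintype.card W : ℝ) = n at hnpos ⊢
  have hA0 : ∀ x y, 0 ≤ A x y := by
    intro x y
    rcases hA01 x y with h | h
    · rw [h]
    · rw [h]
      exact zero_le_one
  have hd0 : ∀ x, 0 ≤ ∑ y, A x y := fun x => Finset.sum_nonneg (fun y _ => hA0 x y)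
  have hm0 : 0 ≤ ∑ x, ∑ y, A x y := Finset.sum_nonneg (fun x _ => hd0 x)
  generalize hl : (∑ x, ∑ y, A x y) / n = l
  have hl0 : 0 ≤ l := by rw [← hl]; exact div_nonneg hm0 hnpos.le
  have hd1 : ∀ x y, A x y = 1 → 1 ≤ ∑ y, A x y := by
    intro x y h
    calc (1 : ℝ) = A x y := h.symm
      _ ≤ ∑ y, A x y := Finset.single_le_sum (fun y _ => hA0 x y) (Finset.mem_univ y)
  have hpt : ∀ x x', A x x' * (3 * l ^ 2 - l ^ 3 * (∑ y, A x y)⁻¹ - l ^ 3 * (∑ y, A x' y)⁻¹)
      ≤ A x x' * ((∑ y, A x y) * (∑ y, A x' y)) := by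
    intro x x'
    rcases hA01 x x' with h | h
    · rw [h]
      simp
    · rw [h, one_mul, one_mul]
      have hp : 0 < ∑ y, A x y := lt_of_lt_of_le one_pos (hd1 x x' h)
      have hq : 0 < ∑ y, A x' y :=
        lt_of_lt_of_le one_pos (hd1 x' x (by rw [hsymm]; exact h))
      exact am_gm_aux _ _ l hp hq hl0
  have hinv : ∀ t : ℝ, t * t⁻¹ ≤ 1 := by
    intro t
    by_cases ht : t = 0
    · rw [ht]
      simp
    · rw [mul_inv_cancel₀ ht]
  have hS1 : ∑ x, ∑ x', A x x' * (∑ y, A x y)⁻¹ ≤ n := by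
    calc ∑ x, ∑ x', A x x' * (∑ y, A x y)⁻¹ = ∑ x, (∑ y, A x y) * (∑ y, A x y)⁻¹ := by
          refine Finset.sum_congr rfl (fun x _ => ?_)
          rw [← Finset.sum_mul]
      _ ≤ ∑ x : W, (1 : ℝ) := Finset.sum_le_sum (fun x _ => hinv _)
      _ = n := by rw [← hn]; simp
  have hS2 : ∑ x, ∑ x', A x x' * (∑ y, A x' y)⁻¹ ≤ n := by
    rw [Finset.sum_comm]
    calc ∑ x', ∑ x, A x x' * (∑ y, A x' y)⁻¹ = ∑ x', (∑ y, A x' y) * (∑ y, A x' y)⁻¹ := by
          refine Finset.sum_congr rfl (fun x' _ => ?_)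
          rw [← Finset.sum_mul]
          congr 1
          exact Finset.sum_congr rfl (fun x _ => hsymm x x')
      _ ≤ ∑ x : W, (1 : ℝ) := Finset.sum_le_sum (fun x _ => hinv _)
      _ = n := by rw [← hn]; simp
  have hsum : ∑ x, ∑ x', A x x' * (3 * l ^ 2 - l ^ 3 * (∑ y, A x y)⁻¹ - l ^ 3 * (∑ y, A x' y)⁻¹)
      = 3 * l ^ 2 * (∑ x, ∑ x', A x x') - l ^ 3 * (∑ x, ∑ x', A x x' * (∑ y, A x y)⁻¹)
          - l ^ 3 * (∑ x, ∑ x', A x x' * (∑ y, A x' y)⁻¹) := by
    simp only [Finset.mul_sum, ← Finset.sum_sub_distrib]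
    refine Finset.sum_congr rfl (fun x _ => Finset.sum_congr rfl (fun x' _ => ?_))
    ring
  have hP : 3 * l ^ 2 * (∑ x, ∑ x', A x x') - 2 * l ^ 3 * n
      ≤ ∑ x, ∑ x', A x x' * ((∑ y, A x y) * (∑ y, A x' y)) := by
    have hl3 : 0 ≤ l ^ 3 := pow_nonneg hl0 3
    calc 3 * l ^ 2 * (∑ x, ∑ x', A x x') - 2 * l ^ 3 * n
        ≤ 3 * l ^ 2 * (∑ x, ∑ x', A x x') - l ^ 3 * (∑ x, ∑ x', A x x' * (∑ y, A x y)⁻¹)
          - l ^ 3 * (∑ x, ∑ x', A x x' * (∑ y, A x' y)⁻¹) := by
          nlinarith [mul_le_mul_of_nonneg_left hS1 hl3, mul_le_mul_of_nonneg_left hS2 hl3]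
      _ = _ := hsum.symm
      _ ≤ _ := Finset.sum_le_sum (fun x _ => Finset.sum_le_sum (fun x' _ => hpt x x'))
  have hfin : 3 * l ^ 2 * (∑ x, ∑ x', A x x') - 2 * l ^ 3 * n
      = (∑ x, ∑ y, A x y) ^ 3 / n ^ 2 := by
    rw [← hl]
    field_simp
    ring
  rw [hfin, div_le_iff₀ (by positivity)] at hP
  exact hP

theorem corona_sidorenko {V : Type} [Finite V] [Nonempty V] (H : SimpleGraph V)
    (hH : SidorenkoIneq H) : SidorenkoIneq (corona H) := by
  intro W _ _ G
  classical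
  have := Fintype.ofFinite W
  rw [corona_ncard_edgeSet, Nat.card_sum]
  have hvpos : 0 < Nat.card V := Nat.card_pos
  have hnpos : (0 : ℝ) < (Nat.card W : ℝ) := by exact_mod_cast Nat.card_pos
  have hN0 : (0 : ℝ) ≤ (homCount (corona H) G : ℝ) := Nat.cast_nonneg _
  have hmsum : 2 * (G.edgeSet.ncard : ℝ) = ∑ x, ∑ y, (if G.Adj x y then (1 : ℝ) else 0) :=
    two_mul_ncard_edgeSet G
  have hcard : (Nat.card {p : W × W // G.Adj p.1 p.2} : ℝ) = 2 * (G.edgeSet.ncard : ℝ) := by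
    have h := sum_adjPairs G (fun _ _ => (1 : ℝ))
    have h3 : (Fintype.card {p : W × W // G.Adj p.1 p.2} : ℝ)
        = ∑ a : {p : W × W // G.Adj p.1 p.2}, (1 : ℝ) := by simp
    rw [Nat.card_eq_fintype_card, hmsum, h3]
    refine h.trans ?_
    simp
  have hP4 : (2 * (G.edgeSet.ncard : ℝ)) ^ 3
      ≤ (2 * ((pairGraph G).edgeSet.ncard : ℝ)) * (Nat.card W : ℝ) ^ 2 := by
    rw [two_mul_ncard_edgeSet_pairGraph G, hmsum, Nat.card_eq_fintype_card]
    refine walk3_ineq (fun x y => if G.Adj x y then (1 : ℝ) else 0) ?_ ?_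
    · intro x y
      by_cases h : G.Adj x y <;> simp [h]
    · intro x y
      exact if_congr (G.adj_comm x y) rfl rfl
  generalize hm : 2 * (G.edgeSet.ncard : ℝ) = m at hcard hP4 ⊢
  generalize (Nat.card W : ℝ) = n at hnpos hP4 ⊢
  generalize hv : Nat.card V = v at hvpos ⊢
  generalize he : H.edgeSet.ncard = e
  rcases isEmpty_or_nonempty {p : W × W // G.Adj p.1 p.2} with hemp | hne
  · have hm0 : m = 0 := by
      rw [← hcard]
      simp
    rw [hm0, zero_div, zero_pow (by omega)]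
    positivity
  · have key := hH {p : W × W // G.Adj p.1 p.2} (pairGraph G)
    rw [homCount_pairGraph, hcard, hv, he] at key
    have hmpos : 0 < m := by
      rw [← hcard]
      exact_mod_cast Nat.card_pos
    have hle : m / n ^ 2 ≤ (2 * ((pairGraph G).edgeSet.ncard : ℝ)) / m ^ 2 := by
      rw [div_le_div_iff₀ (by positivity) (by positivity)]
      nlinarith [hP4]
    have h1 : (m / n ^ 2) ^ e ≤ (homCount (corona H) G : ℝ) / m ^ v :=
      le_trans (pow_le_pow_left₀ (by positivity) hle e) key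
    have hmv : m ^ v ≠ 0 := (pow_pos hmpos v).ne'
    have hnv : n ^ v ≠ 0 := (pow_pos hnpos v).ne'
    have e1 : (m / n ^ 2) ^ v = m ^ v / (n ^ v * n ^ v) := by
      rw [div_pow, ← pow_mul, two_mul, pow_add]
    calc (m / n ^ 2) ^ (e + v) = (m / n ^ 2) ^ e * (m / n ^ 2) ^ v := pow_add _ _ _
      _ ≤ ((homCount (corona H) G : ℝ) / m ^ v) * (m / n ^ 2) ^ v := by gcongr
      _ = (homCount (corona H) G : ℝ) / n ^ (v + v) := by
          rw [e1, pow_add]
          generalize m ^ v = M at hmv ⊢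
          generalize n ^ v = K at hnv ⊢
          field_simp

lemma corona_isBipartite {V : Type} (H : SimpleGraph V) (hH : H.IsBipartite) :
    (corona H).IsBipartite := by
  obtain ⟨C⟩ := hH
  have hfin : ∀ a : Fin 2, a ≠ a + 1 := by decide
  refine ⟨SimpleGraph.Coloring.mk (fun a => Sum.elim (fun v => C v) (fun v => C v + 1) a) ?_⟩
  rintro (u | u) (v | v) h
  · exact C.valid h
  · have h' : u = v := h
    subst h'
    exact hfin (C u)
  · have h' : u = v := h
    subst h'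
    exact (hfin (C u)).symm
  · exact False.elim h

lemma corona_edgeSet_nonempty {V : Type} [Nonempty V] (H : SimpleGraph V) :
    (corona H).edgeSet.Nonempty := by
  obtain ⟨v⟩ := ‹Nonempty V›
  exact ⟨s(Sum.inl v, Sum.inr v), (corona_adj_inl_inr H v v).mpr rfl⟩

end Vale.Agent.Lib.P050
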