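import Vale.Agent.Lib.P050.Main

namespace Vale.Agent.Lib.P050

open Finset

section Final

variable {V W : Type*} [Fintype V] [Fintype W] [DecidableEq V] [DecidableEq W]

lemma card_subtype_add_compl (S : W → Prop) [DecidablePred S] :
    Fintype.card {w // S w} + Fintype.card {w // ¬ S w} = Fintype.card W := by
  have h1 := Fintype.card_subtype_compl S
  have h2 := Fintype.card_subtype_le S
  omega

lemma exists_adj_of_card_ne_zero (Γ : SimpleGraph W) [DecidableRel Γ.Adj]
    (h : Γ.edgeFinset.card ≠ 0) : ∃ u v, Γ.Adj u v := by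
  obtain ⟨e, he⟩ := Finset.card_pos.mp (Nat.pos_of_ne_zero h)
  induction e using Sym2.ind with
  | _ u v => exact ⟨u, v, by simpa using he⟩

theorem sidorenko_chain [Nonempty W]
    (H : SimpleGraph V) [DecidableRel H.Adj] (G : SimpleGraph W) [DecidableRel G.Adj]
    (hconn : H.Connected)
    (SH : V → Prop) [DecidablePred SH] (hSH : ∀ u v, H.Adj u v → (SH u ↔ ¬ SH v))
    (SG : W → Prop) [DecidablePred SG] (hSG : ∀ u v, G.Adj u v → (SG u ↔ ¬ SG v))
    (hchain : ∀ q q', ¬ SG q → ¬ SG q' →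
      ((∀ p, G.Adj p q → G.Adj p q') ∨ (∀ p, G.Adj p q' → G.Adj p q))) :
    ((2 * (G.edgeFinset.card : ℝ)) / (Fintype.card W : ℝ) ^ 2) ^ H.edgeFinset.card
      ≤ ((univ.filter (fun f : V → W => ∀ u v, H.Adj u v → G.Adj (f u) (f v))).card : ℝ)
          / (Fintype.card W : ℝ) ^ Fintype.card V := by
  classical
  have hn : (0 : ℝ) < Fintype.card W := by exact_mod_cast Fintype.card_pos
  have : Nonempty V := hconn.nonempty
  by_cases hH0 : H.edgeFinset.card = 0
  · have hbot : ∀ u v, ¬ H.Adj u v := by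
      intro u v huv
      exact (Finset.card_ne_zero_of_mem (by simpa using huv : s(u, v) ∈ H.edgeFinset)) hH0
    have hall : (univ.filter (fun f : V → W => ∀ u v, H.Adj u v → G.Adj (f u) (f v))) = univ := by
      apply Finset.filter_true_of_mem
      intro f _ u v huv
      exact absurd huv (hbot u v)
    rw [hH0, hall, pow_zero, Finset.card_univ, Fintype.card_fun]
    push_cast
    rw [div_self (by positivity)]
  by_cases hG0 : G.edgeFinset.card = 0
  · rw [hG0]
    simp only [Nat.cast_zero, mul_zero, zero_div]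
    rw [zero_pow hH0]
    positivity
  -- main case: both graphs have an edge
  obtain ⟨u0, v0, huv0⟩ := exists_adj_of_card_ne_zero H hH0
  obtain ⟨p0, q0, hpq0⟩ := exists_adj_of_card_ne_zero G hG0
  have hXne : Nonempty {v // SH v} := by
    by_cases h : SH u0
    · exact ⟨⟨u0, h⟩⟩
    · exact ⟨⟨v0, by by_contra h'; exact h ((hSH u0 v0 huv0).mpr h')⟩⟩
  have hYne : Nonempty {v // ¬ SH v} := by
    by_cases h : SH u0
    · exact ⟨⟨v0, (hSH u0 v0 huv0).mp h⟩⟩
    · exact ⟨⟨u0, h⟩⟩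
  have hPne : Nonempty {w // SG w} := by
    by_cases h : SG p0
    · exact ⟨⟨p0, h⟩⟩
    · exact ⟨⟨q0, by by_contra h'; exact h ((hSG p0 q0 hpq0).mpr h')⟩⟩
  have hQne : Nonempty {w // ¬ SG w} := by
    by_cases h : SG p0
    · exact ⟨⟨q0, (hSG p0 q0 hpq0).mp h⟩⟩
    · exact ⟨⟨p0, h⟩⟩
  -- the two applications of the bigraph inequality
  have hnest0 : ∀ q q' : {w // ¬ SG w},
      (∀ p : {w // SG w}, G.Adj p.1 q.1 → G.Adj p.1 q'.1) ∨
      (∀ p : {w // SG w}, G.Adj p.1 q'.1 → G.Adj p.1 q.1) := by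
    intro q q'
    rcases hchain q.1 q'.1 q.2 q'.2 with h | h
    · exact Or.inl (fun p hp => h p.1 hp)
    · exact Or.inr (fun p hp => h p.1 hp)
  have hnest1 : ∀ q q' : {w // SG w},
      (∀ p : {w // ¬ SG w}, G.Adj p.1 q.1 → G.Adj p.1 q'.1) ∨
      (∀ p : {w // ¬ SG w}, G.Adj p.1 q'.1 → G.Adj p.1 q.1) := by
    intro q q'
    rcases nested_transpose (fun (p : {w // SG w}) (q : {w // ¬ SG w}) => G.Adj p.1 q.1)
      hnest0 q q' with h | h
    · exact Or.inl (fun p hp => (h p hp.symm).symm)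
    · exact Or.inr (fun p hp => (h p hp.symm).symm)
  have B0 := bigraph_sidorenko (X := {v // SH v}) (Y := {v // ¬ SH v})
    (P := {w // SG w}) (Q := {w // ¬ SG w})
    (fun x y => H.Adj x.1 y.1) (fun p q => G.Adj p.1 q.1) hnest0
  have B1 := bigraph_sidorenko (X := {v // SH v}) (Y := {v // ¬ SH v})
    (P := {w // ¬ SG w}) (Q := {w // SG w})
    (fun x y => H.Adj x.1 y.1) (fun p q => G.Adj p.1 q.1) hnest1
  have eH := card_cross_pairs H SH hSH
  have eG := card_cross_pairs G SG hSG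
  have eG' : (univ.filter (fun pq : {w // ¬ SG w} × {w // SG w} => G.Adj pq.1.1 pq.2.1)).card
      = G.edgeFinset.card := by
    rw [← eG]
    apply Finset.card_nbij' Prod.swap Prod.swap
    · rintro ⟨p, q⟩ hpq
      simp only [coe_filter, mem_univ, true_and, Set.mem_ofPred_eq, Prod.swap_prod_mk] at hpq ⊢
      exact hpq.symm
    · rintro ⟨p, q⟩ hpq
      simp only [coe_filter, mem_univ, true_and, Set.mem_ofPred_eq, Prod.swap_prod_mk] at hpq ⊢
      exact hpq.symm
    · rintro ⟨p, q⟩ _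
      rfl
    · rintro ⟨p, q⟩ _
      rfl
  rw [eH, eG] at B0
  rw [eH, eG'] at B1
  have hhom := card_pairs_le_homs H G SH SG hSH
  -- abbreviations
  set M0 := (univ.filter (fun φψ : ({v // SH v} → {w // SG w}) × ({v // ¬ SH v} → {w // ¬ SG w}) =>
        ∀ x y, H.Adj x.1 y.1 → G.Adj (φψ.1 x).1 (φψ.2 y).1)).card with hM0
  set M1 := (univ.filter (fun φψ : ({v // SH v} → {w // ¬ SG w}) × ({v // ¬ SH v} → {w // SG w}) =>
        ∀ x y, H.Adj x.1 y.1 → G.Adj (φψ.1 x).1 (φψ.2 y).1)).card with hM1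
  set N := (univ.filter (fun f : V → W => ∀ u v, H.Adj u v → G.Adj (f u) (f v))).card with hN
  set a := Fintype.card {w // SG w} with ha
  set b := Fintype.card {w // ¬ SG w} with hb
  set x := Fintype.card {v // SH v} with hx
  set y := Fintype.card {v // ¬ SH v} with hy
  set e := H.edgeFinset.card with he
  set m := G.edgeFinset.card with hm
  have hab : a + b = Fintype.card W := card_subtype_add_compl SG
  have hxy : x + y = Fintype.card V := card_subtype_add_compl SH
  have ha0 : (0 : ℝ) < a := by exact_mod_cast Fintype.card_pos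
  have hb0 : (0 : ℝ) < b := by exact_mod_cast Fintype.card_pos
  have hx1 : 1 ≤ x := Fintype.card_pos
  have hy1 : 1 ≤ y := Fintype.card_pos
  have hconn' : x + y ≤ e + 1 := by
    have h1 := hconn.card_vert_le_card_edgeSet_add_one
    rw [Nat.card_eq_fintype_card, Nat.card_eq_fintype_card, ← SimpleGraph.edgeFinset_card] at h1
    omega
  have hnR : (Fintype.card W : ℝ) = a + b := by exact_mod_cast hab.symm
  have hN' : ((M0 : ℝ) + M1) ≤ N := by exact_mod_cast hhom
  have hθ : 0 < (a : ℝ) / (a + b) := by positivity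
  have hη : 0 < (b : ℝ) / (a + b) := by positivity
  have hsum : (a : ℝ) / (a + b) + b / (a + b) = 1 := by field_simp
  have hnum := num_ineq ((a : ℝ) / (a + b)) (b / (a + b)) hθ hη hsum x y e hx1 hy1 hconn'
  have hρ : (0 : ℝ) ≤ ((m : ℝ) / (a * b)) ^ e := by positivity
  have hρ' : ((m : ℝ) / (b * a)) ^ e = ((m : ℝ) / (a * b)) ^ e := by rw [mul_comm]
  rw [hρ'] at B1
  rw [← hxy, hnR]
  calc (2 * (m : ℝ) / ((a : ℝ) + b) ^ 2) ^ e
      = (2 * ((a : ℝ) / (a + b)) * (b / (a + b))) ^ e * ((m : ℝ) / (a * b)) ^ e := by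
        rw [← mul_pow]
        congr 1
        field_simp
    _ ≤ (((a : ℝ) / (a + b)) ^ x * (b / (a + b)) ^ y + (b / (a + b)) ^ x * ((a : ℝ) / (a + b)) ^ y)
          * ((m : ℝ) / (a * b)) ^ e := mul_le_mul_of_nonneg_right hnum hρ
    _ = ((a : ℝ) / (a + b)) ^ x * (b / (a + b)) ^ y * ((m : ℝ) / (a * b)) ^ e
          + (b / (a + b)) ^ x * ((a : ℝ) / (a + b)) ^ y * ((m : ℝ) / (a * b)) ^ e := by ring
    _ ≤ ((a : ℝ) / (a + b)) ^ x * (b / (a + b)) ^ y * ((M0 : ℝ) / ((a : ℝ) ^ x * (b : ℝ) ^ y))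
          + (b / (a + b)) ^ x * ((a : ℝ) / (a + b)) ^ y * ((M1 : ℝ) / ((b : ℝ) ^ x * (a : ℝ) ^ y)) := by
        apply add_le_add
        · exact mul_le_mul_of_nonneg_left B0 (by positivity)
        · exact mul_le_mul_of_nonneg_left B1 (by positivity)
    _ = ((M0 : ℝ) + M1) / ((a : ℝ) + b) ^ (x + y) := by
        rw [pow_add, div_pow, div_pow, div_pow, div_pow]
        field_simp
    _ ≤ (N : ℝ) / ((a : ℝ) + b) ^ (x + y) :=
        div_le_div_of_nonneg_right hN' (by positivity)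

end Final

end Vale.Agent.Lib.P050
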