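import Vale.Agent.Lib.P050.Bigraph

namespace Vale.Agent.Lib.P050

open Finset

/-- If the columns of a relation are totally ordered by inclusion then so are its rows. -/
lemma nested_transpose {P Q : Type*} (R : P → Q → Prop)
    (h : ∀ q q' : Q, (∀ p, R p q → R p q') ∨ (∀ p, R p q' → R p q)) :
    ∀ p p' : P, (∀ q, R p q → R p' q) ∨ (∀ q, R p' q → R p q) := by
  intro p p'
  by_contra hcon
  push Not at hcon
  obtain ⟨⟨q, hq1, hq2⟩, ⟨q', hq1', hq2'⟩⟩ := hcon
  rcases h q q' with h1 | h1
  · exact hq2' (h1 p hq1)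
  · exact hq2 (h1 p' hq1')

section Graph

variable {V : Type*} [Fintype V] [DecidableEq V]

/-- In a graph all of whose edges join `S` to its complement, the adjacent pairs `(s, t)`
with `s` in `S` and `t` outside `S` are as many as the edges. -/
lemma card_cross_pairs (Γ : SimpleGraph V) [DecidableRel Γ.Adj] (S : V → Prop) [DecidablePred S]
    (hS : ∀ u v, Γ.Adj u v → (S u ↔ ¬ S v)) :
    (univ.filter (fun xy : {v // S v} × {v // ¬ S v} => Γ.Adj xy.1.1 xy.2.1)).card
      = Γ.edgeFinset.card := by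
  have h2 := Γ.two_mul_card_edgeFinset
  have hD : (univ.filter (fun x : V × V => match x with | (x, y) => Γ.Adj x y))
      = univ.filter (fun uv : V × V => Γ.Adj uv.1 uv.2) := by
    apply Finset.filter_congr
    rintro ⟨a, b⟩ _
    rfl
  rw [hD] at h2
  have hsplit := Finset.card_filter_add_card_filter_not
    (s := univ.filter (fun uv : V × V => Γ.Adj uv.1 uv.2)) (fun uv : V × V => S uv.1)
  have hswap : ((univ.filter (fun uv : V × V => Γ.Adj uv.1 uv.2)).filter
        (fun uv : V × V => ¬ S uv.1)).card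
      = ((univ.filter (fun uv : V × V => Γ.Adj uv.1 uv.2)).filter
        (fun uv : V × V => S uv.1)).card := by
    apply Finset.card_nbij' Prod.swap Prod.swap
    · rintro ⟨u, v⟩ huv
      simp only [coe_filter, mem_filter, mem_univ, true_and, Set.mem_ofPred_eq,
        Prod.swap_prod_mk] at huv ⊢
      refine ⟨huv.1.symm, ?_⟩
      by_contra hv
      exact huv.2 ((hS u v huv.1).mpr hv)
    · rintro ⟨u, v⟩ huv
      simp only [coe_filter, mem_filter, mem_univ, true_and, Set.mem_ofPred_eq,
        Prod.swap_prod_mk] at huv ⊢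
      refine ⟨huv.1.symm, ?_⟩
      exact (hS u v huv.1).mp huv.2
    · rintro ⟨u, v⟩ _
      rfl
    · rintro ⟨u, v⟩ _
      rfl
  have hC : (univ.filter (fun xy : {v // S v} × {v // ¬ S v} => Γ.Adj xy.1.1 xy.2.1)).card
      = ((univ.filter (fun uv : V × V => Γ.Adj uv.1 uv.2)).filter
        (fun uv : V × V => S uv.1)).card := by
    apply Finset.card_bij (fun xy _ => (xy.1.1, xy.2.1))
    · rintro ⟨x, y⟩ hxy
      simp only [mem_filter, mem_univ, true_and] at hxy ⊢
      exact ⟨hxy, x.2⟩
    · rintro ⟨x, y⟩ _ ⟨x', y'⟩ _ h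
      simp only [Prod.mk.injEq] at h
      exact Prod.ext (Subtype.ext h.1) (Subtype.ext h.2)
    · rintro ⟨u, v⟩ huv
      simp only [mem_filter, mem_univ, true_and] at huv
      have hv : ¬ S v := (hS u v huv.1).mp huv.2
      exact ⟨(⟨u, huv.2⟩, ⟨v, hv⟩), by simp [huv.1], rfl⟩
  omega

end Graph

end Vale.Agent.Lib.P050
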