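import Mathlib

namespace Vale.Agent.Lib.P050

open Finset

section Harris

variable {L : Type*} [DistribLattice L] [Fintype L] [Nonempty L]

/-- Harris' inequality for finitely many monotone nonnegative functions on a finite
distributive lattice with the uniform measure (averaged form). -/
lemma harris_prod {ι : Type*} [DecidableEq ι] (s : Finset ι) (F : ι → L → ℝ)
    (h0 : ∀ i ∈ s, ∀ a, 0 ≤ F i a) (hmono : ∀ i ∈ s, Monotone (F i)) :
    ∏ i ∈ s, ((∑ a, F i a) / Fintype.card L) ≤ (∑ a, ∏ i ∈ s, F i a) / Fintype.card L := by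
  have hc : (0 : ℝ) < Fintype.card L := by exact_mod_cast Fintype.card_pos
  induction s using Finset.induction_on with
  | empty =>
    simp only [Finset.prod_empty, Finset.sum_const, Finset.card_univ, nsmul_eq_mul, mul_one]
    rw [div_self hc.ne']
  | insert j s hj ih =>
    rw [Finset.prod_insert hj]
    have ih' := ih (fun i hi => h0 i (Finset.mem_insert_of_mem hi))
      (fun i hi => hmono i (Finset.mem_insert_of_mem hi))
    have hg0 : (0 : L → ℝ) ≤ fun a => ∏ i ∈ s, F i a :=
      fun a => Finset.prod_nonneg (fun i hi => h0 i (Finset.mem_insert_of_mem hi) a)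
    have hgmono : Monotone (fun a => ∏ i ∈ s, F i a) := by
      intro a b hab
      exact Finset.prod_le_prod (fun i hi => h0 i (Finset.mem_insert_of_mem hi) a)
        (fun i hi => hmono i (Finset.mem_insert_of_mem hi) hab)
    have key := fkg (F j) (fun a => ∏ i ∈ s, F i a) (fun _ => (1 : ℝ))
      (fun a => zero_le_one) (fun a => h0 j (Finset.mem_insert_self j s) a) hg0
      (hmono j (Finset.mem_insert_self j s)) hgmono (fun a b => le_refl _)
    simp only [one_mul, Finset.sum_const, Finset.card_univ, nsmul_eq_mul, mul_one] at key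
    have hFj : 0 ≤ (∑ a, F j a) / (Fintype.card L : ℝ) :=
      div_nonneg (Finset.sum_nonneg (fun a _ => h0 j (Finset.mem_insert_self j s) a)) hc.le
    calc (∑ a, F j a) / (Fintype.card L : ℝ) * ∏ i ∈ s, ((∑ a, F i a) / Fintype.card L)
        ≤ (∑ a, F j a) / (Fintype.card L : ℝ) * ((∑ a, ∏ i ∈ s, F i a) / Fintype.card L) :=
          mul_le_mul_of_nonneg_left ih' hFj
      _ = ((∑ a, F j a) * (∑ a, ∏ i ∈ s, F i a)) / ((Fintype.card L : ℝ) * Fintype.card L) := by
          field_simp
      _ ≤ ((Fintype.card L : ℝ) * ∑ a, F j a * ∏ i ∈ s, F i a)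
            / ((Fintype.card L : ℝ) * Fintype.card L) :=
          div_le_div_of_nonneg_right key (by positivity)
      _ = (∑ a, ∏ i ∈ insert j s, F i a) / Fintype.card L := by
          simp only [Finset.prod_insert hj]
          field_simp

end Harris

end Vale.Agent.Lib.P050
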