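import Vale.Agent.Lib.P050.Graph

namespace Vale.Agent.Lib.P050

open Finset

section Glue

variable {V W : Type*} [Fintype V] [Fintype W] [DecidableEq V] [DecidableEq W]

/-- glue maps defined on the two sides of `V` into one map -/
def glue (SH : V → Prop) [DecidablePred SH] (T₁ T₂ : W → Prop)
    (φ : {v // SH v} → {w // T₁ w}) (ψ : {v // ¬ SH v} → {w // T₂ w}) : V → W :=
  fun v => if h : SH v then (φ ⟨v, h⟩ : W) else (ψ ⟨v, h⟩ : W)

omit [Fintype V] [Fintype W] [DecidableEq V] [DecidableEq W] in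
lemma glue_pos (SH : V → Prop) [DecidablePred SH] (T₁ T₂ : W → Prop)
    (φ : {v // SH v} → {w // T₁ w}) (ψ : {v // ¬ SH v} → {w // T₂ w}) {v : V} (h : SH v) :
    glue SH T₁ T₂ φ ψ v = φ ⟨v, h⟩ := by
  simp [glue, h]

omit [Fintype V] [Fintype W] [DecidableEq V] [DecidableEq W] in
lemma glue_neg (SH : V → Prop) [DecidablePred SH] (T₁ T₂ : W → Prop)
    (φ : {v // SH v} → {w // T₁ w}) (ψ : {v // ¬ SH v} → {w // T₂ w}) {v : V} (h : ¬ SH v) :
    glue SH T₁ T₂ φ ψ v = ψ ⟨v, h⟩ := by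
  simp [glue, h]

omit [Fintype V] [Fintype W] [DecidableEq V] [DecidableEq W] in
lemma glue_injective (SH : V → Prop) [DecidablePred SH] (T₁ T₂ : W → Prop) :
    Function.Injective (fun φψ : ({v // SH v} → {w // T₁ w}) × ({v // ¬ SH v} → {w // T₂ w}) =>
      glue SH T₁ T₂ φψ.1 φψ.2) := by
  rintro ⟨φ, ψ⟩ ⟨φ', ψ'⟩ h
  simp only at h
  apply Prod.ext
  · funext x
    have h1 := congrFun h x.1
    rw [glue_pos SH T₁ T₂ φ ψ x.2, glue_pos SH T₁ T₂ φ' ψ' x.2] at h1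
    exact Subtype.ext h1
  · funext y
    have h1 := congrFun h y.1
    rw [glue_neg SH T₁ T₂ φ ψ y.2, glue_neg SH T₁ T₂ φ' ψ' y.2] at h1
    exact Subtype.ext h1

omit [Fintype V] [Fintype W] [DecidableEq V] [DecidableEq W] in
lemma glue_hom (H : SimpleGraph V) (G : SimpleGraph W) (SH : V → Prop) [DecidablePred SH]
    (T₁ T₂ : W → Prop) (hS : ∀ u v, H.Adj u v → (SH u ↔ ¬ SH v))
    (φ : {v // SH v} → {w // T₁ w}) (ψ : {v // ¬ SH v} → {w // T₂ w})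
    (h : ∀ x y, H.Adj x.1 y.1 → G.Adj (φ x).1 (ψ y).1) :
    ∀ u v, H.Adj u v → G.Adj (glue SH T₁ T₂ φ ψ u) (glue SH T₁ T₂ φ ψ v) := by
  intro u v huv
  by_cases hu : SH u
  · have hv : ¬ SH v := (hS u v huv).mp hu
    rw [glue_pos SH T₁ T₂ φ ψ hu, glue_neg SH T₁ T₂ φ ψ hv]
    exact h ⟨u, hu⟩ ⟨v, hv⟩ huv
  · have hv : SH v := by
      by_contra hv
      exact hu ((hS u v huv).mpr hv)
    rw [glue_neg SH T₁ T₂ φ ψ hu, glue_pos SH T₁ T₂ φ ψ hv]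
    exact (h ⟨v, hv⟩ ⟨u, hu⟩ huv.symm).symm

/-- The homomorphisms of the two orientations are distinct homomorphisms. -/
lemma card_pairs_le_homs [Nonempty V] (H : SimpleGraph V) [DecidableRel H.Adj]
    (G : SimpleGraph W) [DecidableRel G.Adj]
    (SH : V → Prop) [DecidablePred SH] (SG : W → Prop) [DecidablePred SG]
    (hS : ∀ u v, H.Adj u v → (SH u ↔ ¬ SH v)) :
    (univ.filter (fun φψ : ({v // SH v} → {w // SG w}) × ({v // ¬ SH v} → {w // ¬ SG w}) =>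
        ∀ x y, H.Adj x.1 y.1 → G.Adj (φψ.1 x).1 (φψ.2 y).1)).card
    + (univ.filter (fun φψ : ({v // SH v} → {w // ¬ SG w}) × ({v // ¬ SH v} → {w // SG w}) =>
        ∀ x y, H.Adj x.1 y.1 → G.Adj (φψ.1 x).1 (φψ.2 y).1)).card
    ≤ (univ.filter (fun f : V → W => ∀ u v, H.Adj u v → G.Adj (f u) (f v))).card := by
  classical
  rw [← Finset.card_image_of_injective _ (glue_injective SH SG (fun w => ¬ SG w)),
    ← Finset.card_image_of_injective
      (univ.filter (fun φψ : ({v // SH v} → {w // ¬ SG w}) × ({v // ¬ SH v} → {w // SG w}) =>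
        ∀ x y, H.Adj x.1 y.1 → G.Adj (φψ.1 x).1 (φψ.2 y).1))
      (glue_injective SH (fun w => ¬ SG w) SG),
    ← Finset.card_union_of_disjoint]
  · apply Finset.card_le_card
    intro f hf
    rcases Finset.mem_union.mp hf with hf | hf
    · obtain ⟨⟨φ, ψ⟩, hmem, rfl⟩ := Finset.mem_image.mp hf
      simp only [mem_filter, mem_univ, true_and] at hmem ⊢
      exact glue_hom H G SH _ _ hS φ ψ hmem
    · obtain ⟨⟨φ, ψ⟩, hmem, rfl⟩ := Finset.mem_image.mp hf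
      simp only [mem_filter, mem_univ, true_and] at hmem ⊢
      exact glue_hom H G SH _ _ hS φ ψ hmem
  · rw [Finset.disjoint_left]
    intro f hf0 hf1
    obtain ⟨⟨φ, ψ⟩, _, rfl⟩ := Finset.mem_image.mp hf0
    obtain ⟨⟨φ', ψ'⟩, _, heq⟩ := Finset.mem_image.mp hf1
    obtain ⟨v⟩ := ‹Nonempty V›
    have h1 := congrFun heq v
    simp only at h1
    by_cases hv : SH v
    · rw [glue_pos SH _ _ φ ψ hv, glue_pos SH _ _ φ' ψ' hv] at h1
      exact (φ' ⟨v, hv⟩).2 (h1 ▸ (φ ⟨v, hv⟩).2)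
    · rw [glue_neg SH _ _ φ ψ hv, glue_neg SH _ _ φ' ψ' hv] at h1
      exact (ψ ⟨v, hv⟩).2 (h1 ▸ (ψ' ⟨v, hv⟩).2)

end Glue

section Numeric

lemma num_core (θ η : ℝ) (hθ : 0 < θ) (hη : 0 < η) (hsum : θ + η = 1) (s k e : ℕ)
    (he : 2 * s + 1 + k ≤ e) :
    (2 * θ * η) ^ e ≤ θ ^ (s + 1) * η ^ (s + 1 + k) + η ^ (s + 1) * θ ^ (s + 1 + k) := by
  have h4 : 4 * (θ * η) ≤ 1 := by nlinarith [sq_nonneg (θ - η)]
  have hpos : 0 < θ * η := mul_pos hθ hη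
  have h2 : 2 * θ * η ≤ 1 := by nlinarith
  have h20 : 0 ≤ 2 * θ * η := by positivity
  have step1 : (2 * θ * η) ^ e ≤ (2 * θ * η) ^ (2 * s + 1 + k) :=
    pow_le_pow_of_le_one h20 h2 he
  refine step1.trans ?_
  have e1 : (2 * θ * η) ^ (2 * s + 1 + k)
      = (θ * η) ^ (s + 1) * (2 ^ (s + 1) * 2 ^ (s + k) * (θ * η) ^ (s + k)) := by
    ring
  have e2 : θ ^ (s + 1) * η ^ (s + 1 + k) + η ^ (s + 1) * θ ^ (s + 1 + k)
      = (θ * η) ^ (s + 1) * (η ^ k + θ ^ k) := by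
    ring
  rw [e1, e2]
  apply mul_le_mul_of_nonneg_left _ (by positivity)
  have hA : 2 ^ k * (2 ^ (s + 1) * 2 ^ (s + k) * (θ * η) ^ (s + k)) ≤ 2 := by
    have h5 : 2 ^ k * (2 ^ (s + 1) * 2 ^ (s + k) * (θ * η) ^ (s + k))
        = 2 * (2 ^ (s + k) * 2 ^ (s + k) * (θ * η) ^ (s + k)) := by
      ring
    rw [h5]
    have h6 : 2 ^ (s + k) * 2 ^ (s + k) * (θ * η) ^ (s + k) ≤ 1 := by
      rw [← mul_pow, ← mul_pow]
      exact pow_le_one₀ (by positivity) (by linarith)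
    linarith
  have hB : (2 : ℝ) ≤ 2 ^ k * (η ^ k + θ ^ k) := by
    rcases Nat.eq_zero_or_pos k with hk | hk
    · subst hk; norm_num
    · have h7 := add_pow_le hθ.le hη.le k
      rw [hsum, one_pow] at h7
      have h2k : (2 : ℝ) ^ k = 2 * 2 ^ (k - 1) := by
        conv_lhs => rw [← Nat.sub_add_cancel hk, pow_succ]
        ring
      rw [h2k]
      nlinarith
  have h2k : (0 : ℝ) < 2 ^ k := by positivity
  exact le_of_mul_le_mul_left (hA.trans hB) h2k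

lemma num_ineq (θ η : ℝ) (hθ : 0 < θ) (hη : 0 < η) (hsum : θ + η = 1) (x y e : ℕ)
    (hx : 1 ≤ x) (hy : 1 ≤ y) (he : x + y ≤ e + 1) :
    (2 * θ * η) ^ e ≤ θ ^ x * η ^ y + η ^ x * θ ^ y := by
  rcases le_total x y with hxy | hxy
  · obtain ⟨s, rfl⟩ : ∃ s, x = s + 1 := ⟨x - 1, by omega⟩
    obtain ⟨k, rfl⟩ : ∃ k, y = s + 1 + k := ⟨y - (s + 1), by omega⟩
    exact num_core θ η hθ hη hsum s k e (by omega)
  · obtain ⟨s, rfl⟩ : ∃ s, y = s + 1 := ⟨y - 1, by omega⟩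
    obtain ⟨k, rfl⟩ : ∃ k, x = s + 1 + k := ⟨x - (s + 1), by omega⟩
    have h := num_core η θ hη hθ (by linarith) s k e (by omega)
    calc (2 * θ * η) ^ e = (2 * η * θ) ^ e := by ring
      _ ≤ η ^ (s + 1) * θ ^ (s + 1 + k) + θ ^ (s + 1) * η ^ (s + 1 + k) := h
      _ = θ ^ (s + 1 + k) * η ^ (s + 1) + η ^ (s + 1 + k) * θ ^ (s + 1) := by ring

end Numeric

end Vale.Agent.Lib.P050
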