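import Vale.Agent.Lib.P050.Corona

namespace Vale.Agent.Lib.P050

open Finset

/-- The graph `gprod H F R` on `V × U`: one copy of `F` for every vertex of `H` (the pairs
`(v, a)` with `v` fixed), and for every edge `uv` of `H` and every `r ∈ R` an edge between the
copies `(u, r)` and `(v, r)` of `r`. -/
def gprod {V U : Type} (H : SimpleGraph V) (F : SimpleGraph U) (R : Set U) :
    SimpleGraph (V × U) where
  Adj p q := (p.1 = q.1 ∧ F.Adj p.2 q.2) ∨ (H.Adj p.1 q.1 ∧ p.2 = q.2 ∧ p.2 ∈ R)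
  symm := ⟨by
    rintro p q (⟨h1, h2⟩ | ⟨h1, h2, h3⟩)
    · exact Or.inl ⟨h1.symm, h2.symm⟩
    · exact Or.inr ⟨h1.symm, h2.symm, h2 ▸ h3⟩⟩
  loopless := ⟨by
    rintro p (⟨_, h2⟩ | ⟨h1, _, _⟩)
    · exact F.loopless.irrefl _ h2
    · exact H.loopless.irrefl _ h1⟩

lemma gprod_adj {V U : Type} (H : SimpleGraph V) (F : SimpleGraph U) (R : Set U) (p q : V × U) :
    (gprod H F R).Adj p q
      ↔ (p.1 = q.1 ∧ F.Adj p.2 q.2) ∨ (H.Adj p.1 q.1 ∧ p.2 = q.2 ∧ p.2 ∈ R) := Iff.rfl

/-- The graph on the homomorphisms `F → G` in which two homomorphisms are adjacent when their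
values at every `r ∈ R` are adjacent in `G`. -/
def homGraph {U W : Type} (F : SimpleGraph U) (R : Set U) (hR : R.Nonempty) (G : SimpleGraph W) :
    SimpleGraph {φ : U → W // ∀ a b, F.Adj a b → G.Adj (φ a) (φ b)} where
  Adj φ ψ := ∀ r ∈ R, G.Adj (φ.1 r) (ψ.1 r)
  symm := ⟨fun _ _ h r hr => (h r hr).symm⟩
  loopless := ⟨fun φ h => by
    obtain ⟨r, hr⟩ := hR
    exact G.loopless.irrefl _ (h r hr)⟩

lemma homCount_gprod {V U W : Type} (H : SimpleGraph V) (F : SimpleGraph U) (R : Set U)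
    (hR : R.Nonempty) (G : SimpleGraph W) :
    homCount (gprod H F R) G = homCount H (homGraph F R hR G) := by
  unfold homCount
  refine Nat.card_congr ?_
  refine
    { toFun := fun Φ => ⟨fun v => ⟨fun a => Φ.1 (v, a),
          fun a b hab => Φ.2 (v, a) (v, b) (Or.inl ⟨rfl, hab⟩)⟩,
        fun u v huv r hr => Φ.2 (u, r) (v, r) (Or.inr ⟨huv, rfl, hr⟩)⟩
      invFun := fun ψ => ⟨fun p => (ψ.1 p.1).1 p.2, ?_⟩
      left_inv := fun Φ => rfl
      right_inv := fun ψ => rfl }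
  rintro ⟨u, a⟩ ⟨v, b⟩ (⟨h1, h2⟩ | ⟨h1, h2, h3⟩)
  · dsimp only at h1 h2 ⊢
    subst h1
    exact (ψ.1 u).2 a b h2
  · dsimp only at h1 h2 h3 ⊢
    subst h2
    exact ψ.2 u v h1 a h3

lemma gprod_ncard_edgeSet {V U : Type} [Finite V] [Finite U] (H : SimpleGraph V)
    (F : SimpleGraph U) (R : Set U) :
    (gprod H F R).edgeSet.ncard
      = Nat.card V * F.edgeSet.ncard + H.edgeSet.ncard * R.ncard := by
  classical
  have := Fintype.ofFinite V
  have := Fintype.ofFinite U
  have h1 := two_mul_ncard_edgeSet (gprod H F R)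
  have h2 := two_mul_ncard_edgeSet H
  have h3 := two_mul_ncard_edgeSet F
  have hR : (R.ncard : ℝ) = ∑ a : U, (if a ∈ R then (1 : ℝ) else 0) := by
    rw [Set.ncard_eq_toFinset_card' R, Finset.sum_boole]
    congr 2
    ext a
    simp
  have key : ∀ p q : V × U, (if (gprod H F R).Adj p q then (1 : ℝ) else 0)
      = (if p.1 = q.1 then (1 : ℝ) else 0) * (if F.Adj p.2 q.2 then (1 : ℝ) else 0)
        + (if H.Adj p.1 q.1 then (1 : ℝ) else 0)
          * ((if p.2 = q.2 then (1 : ℝ) else 0) * (if p.2 ∈ R then (1 : ℝ) else 0)) := by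
    intro p q
    by_cases hH : H.Adj p.1 q.1
    · have hne : p.1 ≠ q.1 := H.ne_of_adj hH
      by_cases h2 : p.2 = q.2 <;> by_cases h3 : p.2 ∈ R <;> simp [gprod_adj, hH, hne, h2, h3]
    · by_cases h1 : p.1 = q.1 <;> by_cases h2 : F.Adj p.2 q.2 <;> simp [gprod_adj, hH, h1, h2]
  have e1 : ∀ (v : V) (a : U),
      ∑ w : V, ∑ b : U, ((if v = w then (1 : ℝ) else 0) * (if F.Adj a b then (1 : ℝ) else 0)
        + (if H.Adj v w then (1 : ℝ) else 0)
          * ((if a = b then (1 : ℝ) else 0) * (if a ∈ R then (1 : ℝ) else 0)))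
      = (∑ b : U, (if F.Adj a b then (1 : ℝ) else 0))
        + (∑ w : V, (if H.Adj v w then (1 : ℝ) else 0)) * (if a ∈ R then (1 : ℝ) else 0) := by
    intro v a
    have s1 : ∀ w : V, ∑ b : U, ((if v = w then (1 : ℝ) else 0)
          * (if F.Adj a b then (1 : ℝ) else 0)
        + (if H.Adj v w then (1 : ℝ) else 0)
          * ((if a = b then (1 : ℝ) else 0) * (if a ∈ R then (1 : ℝ) else 0)))
        = (if v = w then (1 : ℝ) else 0) * (∑ b : U, (if F.Adj a b then (1 : ℝ) else 0))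
          + (if H.Adj v w then (1 : ℝ) else 0) * (if a ∈ R then (1 : ℝ) else 0) := by
      intro w
      rw [Finset.sum_add_distrib, ← Finset.mul_sum, ← Finset.mul_sum, ← Finset.sum_mul]
      simp
    simp only [s1]
    rw [Finset.sum_add_distrib, ← Finset.sum_mul, ← Finset.sum_mul]
    simp
  have h4 : 2 * ((gprod H F R).edgeSet.ncard : ℝ)
      = (Nat.card V : ℝ) * (2 * (F.edgeSet.ncard : ℝ))
        + (2 * (H.edgeSet.ncard : ℝ)) * (R.ncard : ℝ) := by
    have e2 : ∀ v : V, ∑ a : U, ((∑ b : U, (if F.Adj a b then (1 : ℝ) else 0))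
          + (∑ w : V, (if H.Adj v w then (1 : ℝ) else 0)) * (if a ∈ R then (1 : ℝ) else 0))
        = (∑ a : U, ∑ b : U, (if F.Adj a b then (1 : ℝ) else 0))
          + (∑ w : V, (if H.Adj v w then (1 : ℝ) else 0))
            * (∑ a : U, (if a ∈ R then (1 : ℝ) else 0)) := by
      intro v
      rw [Finset.sum_add_distrib, Finset.mul_sum]
    rw [h1, h2, h3, hR, Nat.card_eq_fintype_card]
    simp only [key, Fintype.sum_prod_type, e1, e2]
    rw [Finset.sum_add_distrib, ← Finset.sum_mul, Finset.sum_const, Finset.card_univ,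
      nsmul_eq_mul]
  have h5 : ((gprod H F R).edgeSet.ncard : ℝ)
      = ((Nat.card V * F.edgeSet.ncard + H.edgeSet.ncard * R.ncard : ℕ) : ℝ) := by
    push_cast
    linarith
  exact_mod_cast h5

lemma card_adjPairs {W : Type} [Finite W] (G : SimpleGraph W) :
    (Nat.card {p : W × W // G.Adj p.1 p.2} : ℝ) = 2 * (G.edgeSet.ncard : ℝ) := by
  classical
  have := Fintype.ofFinite W
  have h := sum_adjPairs G (fun _ _ => (1 : ℝ))
  have h3 : (Fintype.card {p : W × W // G.Adj p.1 p.2} : ℝ)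
      = ∑ a : {p : W × W // G.Adj p.1 p.2}, (1 : ℝ) := by simp
  rw [Nat.card_eq_fintype_card, two_mul_ncard_edgeSet G, h3]
  refine h.trans ?_
  simp

/-- Homomorphisms from the complete graph on two vertices are the adjacent ordered pairs. -/
def boolHomEquiv {W : Type} (G : SimpleGraph W) :
    {f : Bool → W // ∀ a b, (⊤ : SimpleGraph Bool).Adj a b → G.Adj (f a) (f b)}
      ≃ {p : W × W // G.Adj p.1 p.2} where
  toFun f := ⟨(f.1 true, f.1 false), f.2 true false (by simp)⟩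
  invFun p := ⟨fun b => cond b p.1.1 p.1.2, by
    intro a b hab
    cases a <;> cases b
    · exact absurd rfl ((SimpleGraph.top_adj _ _).mp hab)
    · exact p.2.symm
    · exact p.2
    · exact absurd rfl ((SimpleGraph.top_adj _ _).mp hab)⟩
  left_inv f := by
    apply Subtype.ext
    funext b
    cases b <;> rfl
  right_inv p := rfl

lemma homCount_top_bool {W : Type} [Finite W] (G : SimpleGraph W) :
    (homCount (⊤ : SimpleGraph Bool) G : ℝ) = 2 * (G.edgeSet.ncard : ℝ) := by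
  rw [← card_adjPairs]
  unfold homCount
  rw [Nat.card_congr (boolHomEquiv G)]

/-- General closure statement: if `H` and `F` satisfy Sidorenko's inequality and the graph
`gprod K_2 F R` dominates `t(F,G)^2 p(G)^|R|`, then `gprod H F R` satisfies Sidorenko's
inequality. -/
theorem gprod_sidorenko {V U : Type} [Finite V] [Nonempty V] [Finite U] (H : SimpleGraph V)
    (F : SimpleGraph U) (R : Set U) (hR : R.Nonempty)
    (hH : SidorenkoIneq H) (hF : SidorenkoIneq F)
    (hdom : ∀ (W : Type) [Finite W] [Nonempty W] (G : SimpleGraph W),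
      (homCount F G : ℝ) ^ 2 * ((2 * (G.edgeSet.ncard : ℝ)) / (Nat.card W : ℝ) ^ 2) ^ R.ncard
        ≤ (homCount (gprod (⊤ : SimpleGraph Bool) F R) G : ℝ)) :
    SidorenkoIneq (gprod H F R) := by
  intro W _ _ G
  rw [gprod_ncard_edgeSet, Nat.card_prod]
  have hF' := hF W G
  have hd := hdom W G
  rw [homCount_gprod (⊤ : SimpleGraph Bool) F R hR G, homCount_top_bool] at hd
  rw [homCount_gprod H F R hR G]
  have hcardT : Nat.card {φ : U → W // ∀ a b, F.Adj a b → G.Adj (φ a) (φ b)} = homCount F G :=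
    rfl
  have hnpos : (0 : ℝ) < (Nat.card W : ℝ) := by exact_mod_cast Nat.card_pos
  have hvpos : 0 < Nat.card V := Nat.card_pos
  have hp0 : (0 : ℝ) ≤ (2 * (G.edgeSet.ncard : ℝ)) / (Nat.card W : ℝ) ^ 2 := by positivity
  generalize (2 * (G.edgeSet.ncard : ℝ)) / (Nat.card W : ℝ) ^ 2 = p at hF' hd hp0 ⊢
  generalize (Nat.card W : ℝ) = n at hF' hnpos ⊢
  generalize hv : Nat.card V = v at hvpos ⊢
  generalize Nat.card U = u at hF' ⊢
  generalize F.edgeSet.ncard = eF at hF' ⊢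
  generalize he : H.edgeSet.ncard = e
  generalize R.ncard = r at hd ⊢
  rcases isEmpty_or_nonempty {φ : U → W // ∀ a b, F.Adj a b → G.Adj (φ a) (φ b)} with hemp | hne
  · have hN : homCount F G = 0 := by
      rw [← hcardT]
      exact Nat.card_of_isEmpty
    rw [hN, Nat.cast_zero, zero_div] at hF'
    have h0 : p ^ eF = 0 := le_antisymm hF' (pow_nonneg hp0 _)
    have hp00 : p = 0 := by
      by_contra hne
      exact (pow_ne_zero _ hne) h0
    have heF : eF ≠ 0 := by
      intro h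
      rw [h, pow_zero] at h0
      exact one_ne_zero h0
    have hexp : v * eF + e * r ≠ 0 := by
      have : 0 < v * eF := Nat.mul_pos hvpos (Nat.pos_of_ne_zero heF)
      omega
    rw [hp00, zero_pow hexp]
    positivity
  · have key := hH {φ : U → W // ∀ a b, F.Adj a b → G.Adj (φ a) (φ b)} (homGraph F R hR G)
    rw [hcardT, hv, he] at key
    have hNpos : (0 : ℝ) < (homCount F G : ℝ) := by
      rw [← hcardT]
      exact_mod_cast Nat.card_pos
    generalize (homCount F G : ℝ) = N at hF' hd key hNpos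
    generalize (2 * ((homGraph F R hR G).edgeSet.ncard : ℝ)) = Q at hd key
    generalize (homCount H (homGraph F R hR G) : ℝ) = M at key ⊢
    have h1 : p ^ r ≤ Q / N ^ 2 := by
      rw [le_div_iff₀ (by positivity)]
      linarith
    have h2 : (p ^ r) ^ e ≤ M / N ^ v := le_trans (pow_le_pow_left₀ (by positivity) h1 e) key
    have h3 : (p ^ eF) ^ v ≤ (N / n ^ u) ^ v := pow_le_pow_left₀ (by positivity) hF' v
    have hM0 : 0 ≤ M / N ^ v := le_trans (by positivity) h2
    have hNv : N ^ v ≠ 0 := (pow_pos hNpos v).ne'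
    have hnu : (n ^ u) ^ v ≠ 0 := (pow_pos (pow_pos hnpos u) v).ne'
    calc p ^ (v * eF + e * r) = (p ^ eF) ^ v * (p ^ r) ^ e := by
          rw [pow_add, ← pow_mul, ← pow_mul, mul_comm v eF, mul_comm e r]
      _ ≤ (N / n ^ u) ^ v * (M / N ^ v) := mul_le_mul h3 h2 (by positivity) (by positivity)
      _ = M / n ^ (v * u) := by
          rw [div_pow, mul_comm v u, pow_mul]
          field_simp

lemma ncard_edgeSet_congr {X Y : Type} [Finite X] [Finite Y] (Γ : SimpleGraph X)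
    (Δ : SimpleGraph Y) (e : X ≃ Y) (h : ∀ a b, Γ.Adj a b ↔ Δ.Adj (e a) (e b)) :
    Γ.edgeSet.ncard = Δ.edgeSet.ncard := by
  classical
  have := Fintype.ofFinite X
  have := Fintype.ofFinite Y
  have h1 := two_mul_ncard_edgeSet Γ
  have h2 := two_mul_ncard_edgeSet Δ
  have h3 : (2 * (Γ.edgeSet.ncard : ℝ)) = 2 * (Δ.edgeSet.ncard : ℝ) := by
    rw [h1, h2]
    exact Fintype.sum_equiv e _ _
      (fun a => Fintype.sum_equiv e _ _ (fun b => if_congr (h a b) rfl rfl))
  have h4 : (Γ.edgeSet.ncard : ℝ) = (Δ.edgeSet.ncard : ℝ) := by linarith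
  exact_mod_cast h4

lemma top_bool_ncard_edgeSet : (⊤ : SimpleGraph Bool).edgeSet.ncard = 1 := by
  classical
  have h := two_mul_ncard_edgeSet (⊤ : SimpleGraph Bool)
  have h2 : (∑ x : Bool, ∑ y : Bool, (if (⊤ : SimpleGraph Bool).Adj x y then (1 : ℝ) else 0))
      = 2 := by
    simp
    norm_num
  rw [h2] at h
  have h3 : ((⊤ : SimpleGraph Bool).edgeSet.ncard : ℝ) = ((1 : ℕ) : ℝ) := by
    push_cast
    linarith
  exact_mod_cast h3

lemma sidorenko_top_bool : SidorenkoIneq (⊤ : SimpleGraph Bool) := by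
  intro W _ _ G
  rw [homCount_top_bool, top_bool_ncard_edgeSet, pow_one, Nat.card_eq_fintype_card (α := Bool),
    Fintype.card_bool]

lemma walk3_graph {W : Type} [Finite W] [Nonempty W] (G : SimpleGraph W) :
    (2 * (G.edgeSet.ncard : ℝ)) ^ 3
      ≤ (2 * ((pairGraph G).edgeSet.ncard : ℝ)) * (Nat.card W : ℝ) ^ 2 := by
  classical
  have := Fintype.ofFinite W
  rw [two_mul_ncard_edgeSet_pairGraph G, two_mul_ncard_edgeSet G, Nat.card_eq_fintype_card]
  refine walk3_ineq (fun x y => if G.Adj x y then (1 : ℝ) else 0) ?_ ?_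
  · intro x y
    by_cases h : G.Adj x y <;> simp [h]
  · intro x y
    exact if_congr (G.adj_comm x y) rfl rfl

lemma dom_top_bool {W : Type} [Finite W] [Nonempty W] (G : SimpleGraph W) :
    (homCount (⊤ : SimpleGraph Bool) G : ℝ) ^ 2
        * ((2 * (G.edgeSet.ncard : ℝ)) / (Nat.card W : ℝ) ^ 2) ^ ({true} : Set Bool).ncard
      ≤ (homCount (gprod (⊤ : SimpleGraph Bool) (⊤ : SimpleGraph Bool) {true}) G : ℝ) := by
  rw [homCount_gprod _ _ _ (Set.singleton_nonempty true) G, homCount_top_bool, homCount_top_bool,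
    Set.ncard_singleton, pow_one]
  have h1 : (homGraph (⊤ : SimpleGraph Bool) {true} (Set.singleton_nonempty true) G).edgeSet.ncard
      = (pairGraph G).edgeSet.ncard :=
    ncard_edgeSet_congr _ _ (boolHomEquiv G) (fun φ ψ => by
      constructor
      · intro h
        exact h true rfl
      · intro h r hr
        rw [Set.mem_singleton_iff] at hr
        subst hr
        exact h)
  rw [h1]
  have h2 := walk3_graph G
  have hn : (0 : ℝ) < (Nat.card W : ℝ) := by exact_mod_cast Nat.card_pos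
  rw [mul_div_assoc', div_le_iff₀ (by positivity)]
  nlinarith [h2]

/-- Instance of the general closure statement: a pendant vertex at every vertex. -/
theorem gprod_top_bool_sidorenko {V : Type} [Finite V] [Nonempty V] (H : SimpleGraph V)
    (hH : SidorenkoIneq H) : SidorenkoIneq (gprod H (⊤ : SimpleGraph Bool) {true}) :=
  gprod_sidorenko H ⊤ {true} (Set.singleton_nonempty true) hH sidorenko_top_bool
    (fun _ _ _ G => dom_top_bool G)

/-- The path with three vertices `0 - 1 - 2`: two vertices are adjacent when exactly one of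
them is the middle vertex `1`. -/
def path3 : SimpleGraph (Fin 3) where
  Adj a b := (a = 1 ∧ b ≠ 1) ∨ (a ≠ 1 ∧ b = 1)
  symm := ⟨by
    rintro a b (⟨h1, h2⟩ | ⟨h1, h2⟩)
    · exact Or.inr ⟨h2, h1⟩
    · exact Or.inl ⟨h2, h1⟩⟩
  loopless := ⟨by
    rintro a (⟨h1, h2⟩ | ⟨h1, h2⟩)
    · exact h2 h1
    · exact h1 h2⟩

lemma path3_adj (a b : Fin 3) : path3.Adj a b ↔ (a = 1 ∧ b ≠ 1) ∨ (a ≠ 1 ∧ b = 1) := Iff.rfl

lemma path3_hom_iff {W : Type} (G : SimpleGraph W) (f : Fin 3 → W) :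
    (∀ a b, path3.Adj a b → G.Adj (f a) (f b)) ↔ G.Adj (f 1) (f 0) ∧ G.Adj (f 1) (f 2) := by
  have hfin : ∀ b : Fin 3, b ≠ 1 → b = 0 ∨ b = 2 := by decide
  constructor
  · intro h
    exact ⟨h 1 0 (Or.inl ⟨rfl, by decide⟩), h 1 2 (Or.inl ⟨rfl, by decide⟩)⟩
  · rintro ⟨h0, h2⟩ a b (⟨rfl, hb⟩ | ⟨ha, rfl⟩)
    · rcases hfin b hb with rfl | rfl
      · exact h0
      · exact h2
    · rcases hfin a ha with rfl | rfl
      · exact h0.symm
      · exact h2.symm

/-- Homomorphisms from the path with three vertices are the triples (middle, end, end). -/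
def path3HomEquiv {W : Type} (G : SimpleGraph W) :
    {f : Fin 3 → W // ∀ a b, path3.Adj a b → G.Adj (f a) (f b)}
      ≃ {t : W × W × W // G.Adj t.1 t.2.1 ∧ G.Adj t.1 t.2.2} where
  toFun f := ⟨(f.1 1, f.1 0, f.1 2), (path3_hom_iff G f.1).mp f.2⟩
  invFun t := ⟨fun i => if i = 1 then t.1.1 else if i = 0 then t.1.2.1 else t.1.2.2,
    (path3_hom_iff G _).mpr (by simpa using t.2)⟩
  left_inv f := by
    apply Subtype.ext
    funext i
    fin_cases i <;> simp
  right_inv t := by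
    apply Subtype.ext
    simp

/-- The graph on the triples (middle, end, end) of `G` in which two triples are adjacent when
their first ends are adjacent and their second ends are adjacent. -/
def tripleGraph {W : Type} (G : SimpleGraph W) :
    SimpleGraph {t : W × W × W // G.Adj t.1 t.2.1 ∧ G.Adj t.1 t.2.2} where
  Adj s t := G.Adj s.1.2.1 t.1.2.1 ∧ G.Adj s.1.2.2 t.1.2.2
  symm := ⟨fun _ _ h => ⟨h.1.symm, h.2.symm⟩⟩
  loopless := ⟨fun _ h => G.loopless.irrefl _ h.1⟩

lemma tripleGraph_adj {W : Type} (G : SimpleGraph W)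
    (s t : {t : W × W × W // G.Adj t.1 t.2.1 ∧ G.Adj t.1 t.2.2}) :
    (tripleGraph G).Adj s t ↔ G.Adj s.1.2.1 t.1.2.1 ∧ G.Adj s.1.2.2 t.1.2.2 := Iff.rfl

lemma sum_adjTriples {W : Type} [Fintype W] (G : SimpleGraph W) [DecidableRel G.Adj]
    (f : W → W → W → ℝ) :
    ∑ t : {t : W × W × W // G.Adj t.1 t.2.1 ∧ G.Adj t.1 t.2.2}, f t.1.1 t.1.2.1 t.1.2.2
      = ∑ c, ∑ x, ∑ y, ((if G.Adj c x then (1 : ℝ) else 0) * (if G.Adj c y then (1 : ℝ) else 0))
          * f c x y := by
  rw [← Finset.sum_subtype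
      (univ.filter (fun t : W × W × W => G.Adj t.1 t.2.1 ∧ G.Adj t.1 t.2.2)) (by simp)
      (fun t : W × W × W => f t.1 t.2.1 t.2.2),
    Finset.sum_filter, Fintype.sum_prod_type]
  refine Finset.sum_congr rfl (fun c _ => ?_)
  rw [Fintype.sum_prod_type]
  refine Finset.sum_congr rfl (fun x _ => Finset.sum_congr rfl (fun y _ => ?_))
  by_cases h1 : G.Adj c x <;> by_cases h2 : G.Adj c y <;> simp [h1, h2]

lemma two_mul_ncard_edgeSet_tripleGraph {W : Type} [Fintype W] (G : SimpleGraph W)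
    [DecidableRel G.Adj] :
    2 * ((tripleGraph G).edgeSet.ncard : ℝ)
      = ∑ c, ∑ x, ∑ y, ((if G.Adj c x then (1 : ℝ) else 0) * (if G.Adj c y then (1 : ℝ) else 0))
          * (∑ c', ∑ x', ∑ y',
              ((if G.Adj c' x' then (1 : ℝ) else 0) * (if G.Adj c' y' then (1 : ℝ) else 0))
              * ((if G.Adj x x' then (1 : ℝ) else 0) * (if G.Adj y y' then (1 : ℝ) else 0))) := by
  classical
  rw [two_mul_ncard_edgeSet (tripleGraph G)]
  have e1 : ∀ s : {t : W × W × W // G.Adj t.1 t.2.1 ∧ G.Adj t.1 t.2.2},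
      (∑ t : {t : W × W × W // G.Adj t.1 t.2.1 ∧ G.Adj t.1 t.2.2},
          (if (tripleGraph G).Adj s t then (1 : ℝ) else 0))
        = ∑ c', ∑ x', ∑ y',
            ((if G.Adj c' x' then (1 : ℝ) else 0) * (if G.Adj c' y' then (1 : ℝ) else 0))
            * ((if G.Adj s.1.2.1 x' then (1 : ℝ) else 0)
                * (if G.Adj s.1.2.2 y' then (1 : ℝ) else 0)) := by
    intro s
    have h := sum_adjTriples G (fun _ x' y' => (if G.Adj s.1.2.1 x' then (1 : ℝ) else 0)
      * (if G.Adj s.1.2.2 y' then (1 : ℝ) else 0))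
    refine Eq.trans (Finset.sum_congr rfl (fun t _ => ?_)) h
    by_cases h1 : G.Adj s.1.2.1 t.1.2.1 <;> by_cases h2 : G.Adj s.1.2.2 t.1.2.2 <;>
      simp [tripleGraph_adj, h1, h2]
  rw [Finset.sum_congr rfl (fun s _ => e1 s)]
  exact sum_adjTriples G (fun _ x y => ∑ c', ∑ x', ∑ y',
    ((if G.Adj c' x' then (1 : ℝ) else 0) * (if G.Adj c' y' then (1 : ℝ) else 0))
    * ((if G.Adj x x' then (1 : ℝ) else 0) * (if G.Adj y y' then (1 : ℝ) else 0)))

/-- For a symmetric real matrix `A` on a nonempty finite index set of size `n`: the trace of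
`A^6`, written as a sum over two triples, is at least `(1^T A^2 1)^2 (1^T A 1)^2 / n^4`. -/
lemma trace6_ineq {W : Type} [Fintype W] [Nonempty W] (A : W → W → ℝ)
    (hsymm : ∀ x y, A x y = A y x) :
    (∑ c, ∑ x, ∑ y, A c x * A c y) ^ 2 * (∑ x, ∑ y, A x y) ^ 2
      ≤ (∑ c, ∑ x, ∑ y, (A c x * A c y)
            * (∑ c', ∑ x', ∑ y', (A c' x' * A c' y') * (A x x' * A y y')))
          * (Fintype.card W : ℝ) ^ 4 := by
  classical
  have hnpos : (0 : ℝ) < (Fintype.card W : ℝ) := by exact_mod_cast Fintype.card_pos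
  obtain ⟨d, hd⟩ : ∃ d : W → ℝ, ∀ c, d c = ∑ y, A c y := ⟨fun c => ∑ y, A c y, fun _ => rfl⟩
  obtain ⟨B, hB⟩ : ∃ B : W → W → ℝ, ∀ c c', B c c' = ∑ x, ∑ x', A c x * A x x' * A x' c' :=
    ⟨fun c c' => ∑ x, ∑ x', A c x * A x x' * A x' c', fun _ _ => rfl⟩
  obtain ⟨t, ht⟩ : ∃ t : W → ℝ, ∀ z, t z = ∑ y, A z y * d y :=
    ⟨fun z => ∑ y, A z y * d y, fun _ => rfl⟩
  have hw2 : ∑ c, ∑ x, ∑ y, A c x * A c y = ∑ c, d c ^ 2 := by
    refine Finset.sum_congr rfl (fun c _ => ?_)
    rw [hd, sq, Finset.sum_mul_sum]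
  have hm : ∑ x, ∑ y, A x y = ∑ c, d c := Finset.sum_congr rfl (fun c _ => (hd c).symm)
  have hcol : ∀ x, ∑ c, A c x = d x := by
    intro x
    rw [hd]
    exact Finset.sum_congr rfl (fun c _ => hsymm c x)
  have hE : ∑ c, ∑ x, ∑ y, (A c x * A c y)
        * (∑ c', ∑ x', ∑ y', (A c' x' * A c' y') * (A x x' * A y y'))
      = ∑ c, ∑ c', B c c' ^ 2 := by
    simp only [Finset.mul_sum]
    refine Finset.sum_congr rfl (fun c _ => ?_)
    refine (Finset.sum_congr rfl (fun x _ => Finset.sum_comm)).trans ?_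
    refine Finset.sum_comm.trans ?_
    refine Finset.sum_congr rfl (fun c' _ => ?_)
    rw [hB, sq, Finset.sum_mul_sum]
    refine Finset.sum_congr rfl (fun x _ => Finset.sum_congr rfl (fun y _ => ?_))
    rw [Finset.sum_mul_sum]
    refine Finset.sum_congr rfl (fun x' _ => Finset.sum_congr rfl (fun y' _ => ?_))
    rw [hsymm c' x', hsymm c' y']
    ring
  have hI1 : ∑ c, ∑ c', B c c' * d c' = ∑ z, t z ^ 2 := by
    have ha : ∀ c, ∑ c', B c c' * d c' = ∑ x, A c x * (∑ x', A x x' * t x') := by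
      intro c
      simp only [hB, ht, Finset.sum_mul, Finset.mul_sum]
      rw [Finset.sum_comm]
      refine Finset.sum_congr rfl (fun x _ => ?_)
      rw [Finset.sum_comm]
      refine Finset.sum_congr rfl (fun x' _ => Finset.sum_congr rfl (fun y _ => ?_))
      ring
    calc ∑ c, ∑ c', B c c' * d c'
        = ∑ c, ∑ x, A c x * (∑ x', A x x' * t x') := Finset.sum_congr rfl (fun c _ => ha c)
      _ = ∑ x, ∑ c, A c x * (∑ x', A x x' * t x') := Finset.sum_comm
      _ = ∑ x, d x * (∑ x', A x x' * t x') := by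
          refine Finset.sum_congr rfl (fun x _ => ?_)
          rw [← Finset.sum_mul, hcol]
      _ = ∑ x, ∑ x', d x * (A x x' * t x') := by
          refine Finset.sum_congr rfl (fun x _ => ?_)
          rw [Finset.mul_sum]
      _ = ∑ x', ∑ x, d x * (A x x' * t x') := Finset.sum_comm
      _ = ∑ z, t z ^ 2 := by
          refine Finset.sum_congr rfl (fun x' _ => ?_)
          have h : t x' ^ 2 = ∑ x, (A x' x * d x) * t x' := by
            rw [sq, ← Finset.sum_mul, ← ht x']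
          rw [h]
          refine Finset.sum_congr rfl (fun x _ => ?_)
          rw [hsymm x x']
          ring
  have hI2 : ∑ z, t z = ∑ c, d c ^ 2 := by
    calc ∑ z, t z = ∑ z, ∑ y, A z y * d y := Finset.sum_congr rfl (fun z _ => ht z)
      _ = ∑ y, ∑ z, A z y * d y := Finset.sum_comm
      _ = ∑ c, d c ^ 2 := by
          refine Finset.sum_congr rfl (fun y _ => ?_)
          rw [← Finset.sum_mul, hcol, sq]
  have hCS1 : (∑ z, t z ^ 2) ^ 2
      ≤ (∑ c, ∑ c', B c c' ^ 2) * ((Fintype.card W : ℝ) * ∑ c, d c ^ 2) := by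
    have h := Finset.sum_mul_sq_le_sq_mul_sq (Finset.univ : Finset (W × W))
      (fun p => B p.1 p.2) (fun p => d p.2)
    simp only [Fintype.sum_prod_type] at h
    rw [hI1] at h
    have h2 : ∑ _x : W, ∑ y : W, d y ^ 2 = (Fintype.card W : ℝ) * ∑ c, d c ^ 2 := by
      rw [Finset.sum_const, Finset.card_univ, nsmul_eq_mul]
    rw [h2] at h
    exact h
  have hCS2 : (∑ c, d c ^ 2) ^ 2 ≤ (Fintype.card W : ℝ) * ∑ z, t z ^ 2 := by
    have h := sq_sum_le_card_mul_sum_sq (s := (Finset.univ : Finset W)) (f := t)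
    rw [Finset.card_univ, hI2] at h
    exact h
  have hCS3 : (∑ c, d c) ^ 2 ≤ (Fintype.card W : ℝ) * ∑ c, d c ^ 2 := by
    have h := sq_sum_le_card_mul_sum_sq (s := (Finset.univ : Finset W)) (f := d)
    rw [Finset.card_univ] at h
    exact h
  rw [hw2, hm, hE]
  have hw2n : 0 ≤ ∑ c, d c ^ 2 := Finset.sum_nonneg (fun c _ => sq_nonneg _)
  have hE0 : 0 ≤ ∑ c, ∑ c', B c c' ^ 2 :=
    Finset.sum_nonneg (fun c _ => Finset.sum_nonneg (fun c' _ => sq_nonneg _))
  generalize (∑ c, ∑ c', B c c' ^ 2) = E6 at hCS1 hE0 ⊢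
  generalize (∑ z, t z ^ 2) = w4 at hCS1 hCS2
  generalize (∑ c, d c ^ 2) = w2 at hCS1 hCS2 hCS3 hw2n ⊢
  generalize (∑ c, d c) = m at hCS3 ⊢
  generalize (Fintype.card W : ℝ) = n at hnpos hCS1 hCS2 hCS3 ⊢
  have hb2 : w2 ^ 4 ≤ n ^ 2 * w4 ^ 2 := by
    have h := pow_le_pow_left₀ (sq_nonneg w2) hCS2 2
    calc w2 ^ 4 = (w2 ^ 2) ^ 2 := by ring
      _ ≤ (n * w4) ^ 2 := h
      _ = n ^ 2 * w4 ^ 2 := by ring
  have h5 : w2 ^ 4 ≤ n ^ 3 * E6 * w2 := by
    calc w2 ^ 4 ≤ n ^ 2 * w4 ^ 2 := hb2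
      _ ≤ n ^ 2 * (E6 * (n * w2)) := mul_le_mul_of_nonneg_left hCS1 (sq_nonneg n)
      _ = n ^ 3 * E6 * w2 := by ring
  rcases hw2n.eq_or_lt with h0 | hpos
  · rw [← h0]
    have h00 : (0 : ℝ) ^ 2 * m ^ 2 = 0 := by ring
    rw [h00]
    exact mul_nonneg hE0 (pow_nonneg hnpos.le 4)
  · have h6 : w2 ^ 3 ≤ n ^ 3 * E6 := by
      have h7 : w2 ^ 3 * w2 ≤ (n ^ 3 * E6) * w2 := by
        calc w2 ^ 3 * w2 = w2 ^ 4 := by ring
          _ ≤ n ^ 3 * E6 * w2 := h5
      exact le_of_mul_le_mul_right h7 hpos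
    calc w2 ^ 2 * m ^ 2 ≤ w2 ^ 2 * (n * w2) := mul_le_mul_of_nonneg_left hCS3 (sq_nonneg w2)
      _ = n * w2 ^ 3 := by ring
      _ ≤ n * (n ^ 3 * E6) := mul_le_mul_of_nonneg_left h6 hnpos.le
      _ = E6 * n ^ 4 := by ring

lemma path3_ncard_edgeSet : path3.edgeSet.ncard = 2 := by
  classical
  have h := two_mul_ncard_edgeSet path3
  have h2 : (∑ x : Fin 3, ∑ y : Fin 3, (if path3.Adj x y then (1 : ℝ) else 0)) = 4 := by
    have e : ∀ x y : Fin 3, (if path3.Adj x y then (1 : ℝ) else 0)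
        = if ((x = 1 ∧ y ≠ 1) ∨ (x ≠ 1 ∧ y = 1)) then (1 : ℝ) else 0 :=
      fun x y => if_congr (path3_adj x y) rfl rfl
    have h21 : ¬ ((2 : Fin 3) = 1) := by decide
    simp only [e, Fin.sum_univ_three]
    norm_num [h21]
  rw [h2] at h
  have h3 : (path3.edgeSet.ncard : ℝ) = ((2 : ℕ) : ℝ) := by
    push_cast
    linarith
  exact_mod_cast h3

lemma homCount_path3 {W : Type} (G : SimpleGraph W) :
    homCount path3 G = Nat.card {t : W × W × W // G.Adj t.1 t.2.1 ∧ G.Adj t.1 t.2.2} := by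
  unfold homCount
  exact Nat.card_congr (path3HomEquiv G)

lemma card_adjTriples {W : Type} [Fintype W] (G : SimpleGraph W) [DecidableRel G.Adj] :
    (Nat.card {t : W × W × W // G.Adj t.1 t.2.1 ∧ G.Adj t.1 t.2.2} : ℝ)
      = ∑ c, ∑ x, ∑ y, (if G.Adj c x then (1 : ℝ) else 0) * (if G.Adj c y then (1 : ℝ) else 0) := by
  have h := sum_adjTriples G (fun _ _ _ => (1 : ℝ))
  have h3 : (Fintype.card {t : W × W × W // G.Adj t.1 t.2.1 ∧ G.Adj t.1 t.2.2} : ℝ)
      = ∑ _a : {t : W × W × W // G.Adj t.1 t.2.1 ∧ G.Adj t.1 t.2.2}, (1 : ℝ) := by simp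
  rw [Nat.card_eq_fintype_card, h3]
  refine h.trans ?_
  simp

lemma sidorenko_path3 : SidorenkoIneq path3 := by
  intro W _ _ G
  classical
  have := Fintype.ofFinite W
  rw [path3_ncard_edgeSet, homCount_path3, card_adjTriples, two_mul_ncard_edgeSet G,
    Nat.card_eq_fintype_card (α := Fin 3), Fintype.card_fin, Nat.card_eq_fintype_card]
  have hnpos : (0 : ℝ) < (Fintype.card W : ℝ) := by exact_mod_cast Fintype.card_pos
  have h1 : ∀ c : W, ∑ x, ∑ y, (if G.Adj c x then (1 : ℝ) else 0) * (if G.Adj c y then (1 : ℝ) else 0)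
      = (∑ y, (if G.Adj c y then (1 : ℝ) else 0)) ^ 2 := by
    intro c
    rw [sq, Finset.sum_mul_sum]
  rw [Finset.sum_congr rfl (fun c _ => h1 c)]
  have hCS := sq_sum_le_card_mul_sum_sq (s := (Finset.univ : Finset W))
    (f := fun c => ∑ y, (if G.Adj c y then (1 : ℝ) else 0))
  rw [Finset.card_univ] at hCS
  rw [div_pow, div_le_div_iff₀ (by positivity) (by positivity)]
  nlinarith [mul_le_mul_of_nonneg_right hCS (pow_nonneg hnpos.le 3)]

lemma dom_path3 {W : Type} [Finite W] [Nonempty W] (G : SimpleGraph W) :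
    (homCount path3 G : ℝ) ^ 2
        * ((2 * (G.edgeSet.ncard : ℝ)) / (Nat.card W : ℝ) ^ 2) ^ ({0, 2} : Set (Fin 3)).ncard
      ≤ (homCount (gprod (⊤ : SimpleGraph Bool) path3 {0, 2}) G : ℝ) := by
  classical
  have := Fintype.ofFinite W
  have hR : ({0, 2} : Set (Fin 3)).Nonempty := Set.insert_nonempty 0 {2}
  rw [homCount_gprod _ _ _ hR G, homCount_top_bool, Set.ncard_pair (by decide)]
  have h1 : (homGraph path3 {0, 2} hR G).edgeSet.ncard = (tripleGraph G).edgeSet.ncard :=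
    ncard_edgeSet_congr _ _ (path3HomEquiv G) (fun φ ψ => by
      constructor
      · intro h
        exact (tripleGraph_adj G _ _).mpr ⟨h 0 (by simp), h 2 (by simp)⟩
      · intro h r hr
        obtain ⟨h0, h2⟩ := (tripleGraph_adj G _ _).mp h
        rcases hr with rfl | hr
        · exact h0
        · rw [Set.mem_singleton_iff] at hr
          subst hr
          exact h2)
  rw [h1, two_mul_ncard_edgeSet_tripleGraph G, homCount_path3, card_adjTriples,
    two_mul_ncard_edgeSet G, Nat.card_eq_fintype_card]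
  have hnpos : (0 : ℝ) < (Fintype.card W : ℝ) := by exact_mod_cast Fintype.card_pos
  have key := trace6_ineq (fun x y => if G.Adj x y then (1 : ℝ) else 0)
    (fun x y => if_congr (G.adj_comm x y) rfl rfl)
  rw [div_pow, ← mul_div_assoc, div_le_iff₀ (by positivity)]
  calc _ ≤ _ := key
    _ = _ := by ring

/-- Instance of the general closure statement: two copies of `H` in which every vertex is
joined to its twin by a path with two edges. -/
theorem gprod_path3_sidorenko {V : Type} [Finite V] [Nonempty V] (H : SimpleGraph V)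
    (hH : SidorenkoIneq H) : SidorenkoIneq (gprod H path3 {0, 2}) :=
  gprod_sidorenko H path3 {0, 2} (Set.insert_nonempty 0 {2}) hH sidorenko_path3
    (fun _ _ _ G => dom_path3 G)

lemma gprod_isBipartite {V U : Type} (H : SimpleGraph V) (F : SimpleGraph U) (R : Set U)
    (hH : H.IsBipartite) (hF : F.IsBipartite) : (gprod H F R).IsBipartite := by
  obtain ⟨C⟩ := hH
  obtain ⟨D⟩ := hF
  refine ⟨SimpleGraph.Coloring.mk (fun p => C p.1 + D p.2) ?_⟩
  rintro ⟨u, a⟩ ⟨v, b⟩ (⟨h1, h2⟩ | ⟨h1, h2, _⟩)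
  · dsimp only at h1 h2 ⊢
    subst h1
    intro h
    exact D.valid h2 (add_left_cancel h)
  · dsimp only at h1 h2 ⊢
    subst h2
    intro h
    exact C.valid h1 (add_right_cancel h)

end Vale.Agent.Lib.P050
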