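import Vale.Agent.Lib.P050.Product

namespace Vale.Agent.Lib.P050

open Finset

/-- The operator `A` is self-adjoint for the standard bilinear form. -/
lemma op_symm {W : Type} [Fintype W] (A : W → W → ℝ) (hsymm : ∀ x y, A x y = A y x) (f g : W → ℝ) :
    ∑ x, (∑ z, A x z * f z) * g x = ∑ x, f x * (∑ z, A x z * g z) := by
  calc ∑ x, (∑ z, A x z * f z) * g x = ∑ x, ∑ z, A x z * f z * g x := by
        refine Finset.sum_congr rfl (fun x _ => ?_)
        rw [Finset.sum_mul]
    _ = ∑ z, ∑ x, A x z * f z * g x := Finset.sum_comm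
    _ = ∑ z, f z * (∑ x, A z x * g x) := by
        refine Finset.sum_congr rfl (fun z _ => ?_)
        rw [Finset.mul_sum]
        refine Finset.sum_congr rfl (fun x _ => ?_)
        rw [hsymm x z]
        ring

section Walks

variable {W : Type} [Fintype W] [DecidableEq W]

/-- `wm A k x y`: the `(x, y)` entry of the `k`-th power of the matrix `A`. -/
noncomputable def wm (A : W → W → ℝ) : ℕ → W → W → ℝ
  | 0 => fun x y => if x = y then 1 else 0
  | (k + 1) => fun x y => ∑ z, wm A k x z * A z y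

/-- `wu A k x`: the `x`-th row sum of the `k`-th power of `A`. -/
noncomputable def wu (A : W → W → ℝ) (k : ℕ) (x : W) : ℝ := ∑ y, wm A k x y

lemma wm_zero (A : W → W → ℝ) (x y : W) : wm A 0 x y = if x = y then 1 else 0 := rfl

lemma wm_succ (A : W → W → ℝ) (k : ℕ) (x y : W) :
    wm A (k + 1) x y = ∑ z, wm A k x z * A z y := rfl

lemma wm_succ_left (A : W → W → ℝ) (k : ℕ) (x y : W) :
    ∑ z, A x z * wm A k z y = wm A (k + 1) x y := by
  induction k generalizing y with
  | zero =>
    rw [wm_succ]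
    simp [wm_zero]
  | succ k ih =>
    rw [wm_succ A (k + 1)]
    calc ∑ z, A x z * wm A (k + 1) z y
        = ∑ z, ∑ t, A x z * wm A k z t * A t y := by
          refine Finset.sum_congr rfl (fun z _ => ?_)
          rw [wm_succ, Finset.mul_sum]
          exact Finset.sum_congr rfl (fun t _ => (mul_assoc _ _ _).symm)
      _ = ∑ t, ∑ z, A x z * wm A k z t * A t y := Finset.sum_comm
      _ = ∑ t, wm A (k + 1) x t * A t y := by
          refine Finset.sum_congr rfl (fun t _ => ?_)
          rw [← Finset.sum_mul, ih]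

lemma wu_zero (A : W → W → ℝ) (x : W) : wu A 0 x = 1 := by
  unfold wu
  simp [wm_zero]

lemma wu_succ (A : W → W → ℝ) (k : ℕ) (x : W) :
    wu A (k + 1) x = ∑ z, A x z * wu A k z := by
  unfold wu
  calc ∑ y, wm A (k + 1) x y = ∑ y, ∑ z, A x z * wm A k z y :=
        Finset.sum_congr rfl (fun y _ => (wm_succ_left A k x y).symm)
    _ = ∑ z, ∑ y, A x z * wm A k z y := Finset.sum_comm
    _ = ∑ z, A x z * ∑ y, wm A k z y := by
        refine Finset.sum_congr rfl (fun z _ => ?_)
        rw [Finset.mul_sum]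

lemma wu_nonneg (A : W → W → ℝ) (hA0 : ∀ x y, 0 ≤ A x y) (k : ℕ) (x : W) : 0 ≤ wu A k x := by
  induction k generalizing x with
  | zero => rw [wu_zero]; exact zero_le_one
  | succ k ih =>
    rw [wu_succ]
    exact Finset.sum_nonneg (fun z _ => mul_nonneg (hA0 x z) (ih z))

lemma wu_inner (A : W → W → ℝ) (hsymm : ∀ x y, A x y = A y x) (i j : ℕ) :
    ∑ x, wu A i x * wu A j x = ∑ x, wu A (i + j) x := by
  induction i generalizing j with
  | zero =>
    rw [zero_add]
    exact Finset.sum_congr rfl (fun x _ => by rw [wu_zero, one_mul])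
  | succ i ih =>
    have h1 : ∑ x, wu A (i + 1) x * wu A j x = ∑ x, wu A i x * wu A (j + 1) x := by
      calc ∑ x, wu A (i + 1) x * wu A j x
          = ∑ x, (∑ z, A x z * wu A i z) * wu A j x :=
            Finset.sum_congr rfl (fun x _ => by rw [wu_succ])
        _ = ∑ x, wu A i x * (∑ z, A x z * wu A j z) := op_symm A hsymm _ _
        _ = ∑ x, wu A i x * wu A (j + 1) x :=
            Finset.sum_congr rfl (fun x _ => by rw [wu_succ])
    rw [h1, ih (j + 1)]
    have h2 : i + (j + 1) = i + 1 + j := by omega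
    rw [h2]

/-- The walk inequality behind the twin-path closure: with `w_k = 1^T A^k 1`,
`w_k^2 w_1^2 ≤ n^4 ∑_{x,y} (A^{k+1})_{xy}^2`. -/
lemma twin_walk_ineq (A : W → W → ℝ) (hsymm : ∀ x y, A x y = A y x) (k : ℕ) :
    (∑ x, wu A k x) ^ 2 * (∑ x, wu A 1 x) ^ 2
      ≤ (∑ x, ∑ y, wm A (k + 1) x y ^ 2) * (Fintype.card W : ℝ) ^ 4 := by
  have hn0 : (0 : ℝ) ≤ (Fintype.card W : ℝ) := Nat.cast_nonneg _
  have hw0 : ∑ x, wu A 0 x = (Fintype.card W : ℝ) := by
    simp [wu_zero]
  have ha : ∀ j, ∑ x, wu A (2 * j) x = ∑ x, wu A j x ^ 2 := by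
    intro j
    rw [two_mul, ← wu_inner A hsymm j j]
    exact Finset.sum_congr rfl (fun x _ => (sq _).symm)
  have ha0 : ∀ j, 0 ≤ ∑ x, wu A (2 * j) x := by
    intro j
    rw [ha]
    exact Finset.sum_nonneg (fun x _ => sq_nonneg _)
  have hcs1 : ∀ j, (∑ x, wu A j x) ^ 2 ≤ (Fintype.card W : ℝ) * ∑ x, wu A (2 * j) x := by
    intro j
    rw [ha]
    have h := sq_sum_le_card_mul_sum_sq (s := (Finset.univ : Finset W)) (f := wu A j)
    rw [Finset.card_univ] at h
    exact h
  have hlc : ∀ j, (∑ x, wu A (2 * (j + 1)) x) ^ 2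
      ≤ (∑ x, wu A (2 * j) x) * ∑ x, wu A (2 * (j + 2)) x := by
    intro j
    have h := Finset.sum_mul_sq_le_sq_mul_sq (Finset.univ : Finset W) (wu A j) (wu A (j + 2))
    rw [wu_inner A hsymm j (j + 2)] at h
    have e1 : j + (j + 2) = 2 * (j + 1) := by omega
    rw [e1, ← ha, ← ha] at h
    exact h
  have hmono : ∀ j, (∑ x, wu A (2 * j) x) * (∑ x, wu A (2 * 1) x)
      ≤ (Fintype.card W : ℝ) * ∑ x, wu A (2 * (j + 1)) x := by
    intro j
    induction j with
    | zero =>
      rw [mul_zero, hw0, zero_add]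
    | succ j ih =>
      have hl := hlc j
      rcases (ha0 j).eq_or_lt with h0 | hpos
      · have hz : ∑ x, wu A (2 * (j + 1)) x = 0 := by
          have : (∑ x, wu A (2 * (j + 1)) x) ^ 2 ≤ 0 := by
            rw [← h0, zero_mul] at hl
            exact hl
          exact pow_eq_zero_iff (two_ne_zero) |>.mp (le_antisymm this (sq_nonneg _))
        rw [hz, zero_mul]
        exact mul_nonneg hn0 (ha0 (j + 1 + 1))
      · have h3 : (∑ x, wu A (2 * j) x) * ((∑ x, wu A (2 * (j + 1)) x) * (∑ x, wu A (2 * 1) x))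
            ≤ (∑ x, wu A (2 * j) x) * ((Fintype.card W : ℝ) * ∑ x, wu A (2 * (j + 1 + 1)) x) := by
          calc (∑ x, wu A (2 * j) x) * ((∑ x, wu A (2 * (j + 1)) x) * (∑ x, wu A (2 * 1) x))
              = ((∑ x, wu A (2 * j) x) * (∑ x, wu A (2 * 1) x)) * (∑ x, wu A (2 * (j + 1)) x) := by
                ring
            _ ≤ ((Fintype.card W : ℝ) * ∑ x, wu A (2 * (j + 1)) x) * (∑ x, wu A (2 * (j + 1)) x) :=
                mul_le_mul_of_nonneg_right ih (ha0 (j + 1))
            _ = (Fintype.card W : ℝ) * (∑ x, wu A (2 * (j + 1)) x) ^ 2 := by ring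
            _ ≤ (Fintype.card W : ℝ)
                  * ((∑ x, wu A (2 * j) x) * ∑ x, wu A (2 * (j + 2)) x) :=
                mul_le_mul_of_nonneg_left hl hn0
            _ = (∑ x, wu A (2 * j) x)
                  * ((Fintype.card W : ℝ) * ∑ x, wu A (2 * (j + 1 + 1)) x) := by ring
        exact le_of_mul_le_mul_left h3 hpos
  have hiv : ∑ x, wu A (2 * (k + 1)) x
      ≤ (Fintype.card W : ℝ) * ∑ x, ∑ y, wm A (k + 1) x y ^ 2 := by
    rw [ha, Finset.mul_sum]
    refine Finset.sum_le_sum (fun x _ => ?_)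
    have h := sq_sum_le_card_mul_sum_sq (s := (Finset.univ : Finset W)) (f := wm A (k + 1) x)
    rw [Finset.card_univ] at h
    exact h
  have h1 := hcs1 k
  have h2 := hcs1 1
  have h3 := hmono k
  generalize (∑ x, ∑ y, wm A (k + 1) x y ^ 2) = Q at hiv ⊢
  generalize (∑ x, wu A (2 * (k + 1)) x) = c at hiv h3
  have hb0 := ha0 1
  have hk0 := ha0 k
  generalize (∑ x, wu A (2 * 1) x) = b at h2 h3 hb0
  generalize (∑ x, wu A (2 * k) x) = a at h1 h3 hk0
  generalize (∑ x, wu A k x) = p at h1 ⊢
  generalize (∑ x, wu A 1 x) = q at h2 ⊢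
  generalize (Fintype.card W : ℝ) = n at hn0 h1 h2 h3 hiv ⊢
  calc p ^ 2 * q ^ 2 ≤ (n * a) * (n * b) := mul_le_mul h1 h2 (sq_nonneg q) (mul_nonneg hn0 hk0)
    _ = n ^ 2 * (a * b) := by ring
    _ ≤ n ^ 2 * (n * c) := mul_le_mul_of_nonneg_left h3 (sq_nonneg n)
    _ ≤ n ^ 2 * (n * (n * Q)) :=
        mul_le_mul_of_nonneg_left (mul_le_mul_of_nonneg_left hiv hn0) (sq_nonneg n)
    _ = Q * n ^ 4 := by ring

lemma wu_one (A : W → W → ℝ) (x : W) : wu A 1 x = ∑ z, A x z := by
  rw [wu_succ]
  exact Finset.sum_congr rfl (fun z _ => by rw [wu_zero, mul_one])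

lemma wu_one_pos_of_adj (A : W → W → ℝ) (hA0 : ∀ x y, 0 ≤ A x y)
    (hsymm : ∀ x y, A x y = A y x) (x y : W) (h : 0 < A x y) : 0 < wu A 1 y := by
  rw [wu_one]
  calc 0 < A y x := by rw [hsymm y x]; exact h
    _ ≤ ∑ t, A y t := Finset.single_le_sum (fun t _ => hA0 y t) (Finset.mem_univ x)

lemma wu_pos (A : W → W → ℝ) (hA0 : ∀ x y, 0 ≤ A x y) (hsymm : ∀ x y, A x y = A y x)
    (k : ℕ) (x : W) (hx : 0 < wu A 1 x) : 0 < wu A k x := by
  induction k generalizing x with
  | zero => rw [wu_zero]; exact one_pos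
  | succ k ih =>
    rw [wu_succ]
    rw [wu_one] at hx
    obtain ⟨z, hz⟩ : ∃ z, 0 < A x z := by
      by_contra hcon
      have hcon' : ∀ z, A x z ≤ 0 := fun z => not_lt.mp (fun h => hcon ⟨z, h⟩)
      have : ∑ z, A x z ≤ 0 := Finset.sum_nonpos (fun z _ => hcon' z)
      linarith
    exact Finset.sum_pos' (fun t _ => mul_nonneg (hA0 x t) (wu_nonneg A hA0 k t))
      ⟨z, Finset.mem_univ z, mul_pos hz (ih z (wu_one_pos_of_adj A hA0 hsymm x z hz))⟩

lemma wu_log_step (A : W → W → ℝ) (hA0 : ∀ x y, 0 ≤ A x y) (hsymm : ∀ x y, A x y = A y x)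
    (k : ℕ) (x : W) :
    ∑ y, A x y * Real.log (wu A k y)
      ≤ wu A 1 x * (Real.log (wu A (k + 1) x) - Real.log (wu A 1 x)) := by
  rcases (wu_nonneg A hA0 1 x).eq_or_lt with h0 | hpos
  · rw [← h0, zero_mul]
    have hsum : ∑ z, A x z = 0 := by
      rw [← wu_one]
      exact h0.symm
    have hz : ∀ y, A x y = 0 := fun y =>
      (Finset.sum_eq_zero_iff_of_nonneg (fun z _ => hA0 x z)).mp hsum y (Finset.mem_univ y)
    exact le_of_eq (Finset.sum_eq_zero (fun y _ => by rw [hz y, zero_mul]))
  · have hu1 : 0 < wu A (k + 1) x := wu_pos A hA0 hsymm (k + 1) x hpos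
    obtain ⟨c, hc⟩ : ∃ c : ℝ, c = wu A (k + 1) x / wu A 1 x := ⟨_, rfl⟩
    have hcpos : 0 < c := by
      rw [hc]
      exact div_pos hu1 hpos
    have hterm : ∀ y, A x y * Real.log (wu A k y)
        ≤ A x y * (Real.log c + wu A k y / c - 1) := by
      intro y
      rcases (hA0 x y).eq_or_lt with h0 | hAp
      · rw [← h0, zero_mul, zero_mul]
      · have huy : 0 < wu A k y :=
          wu_pos A hA0 hsymm k y (wu_one_pos_of_adj A hA0 hsymm x y hAp)
        have hl := Real.log_le_sub_one_of_pos (div_pos huy hcpos)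
        rw [Real.log_div huy.ne' hcpos.ne'] at hl
        exact mul_le_mul_of_nonneg_left (by linarith) hAp.le
    have e1 : ∑ y, A x y * (Real.log c + wu A k y / c - 1)
        = (∑ y, A x y) * Real.log c + (∑ y, A x y * wu A k y) / c - ∑ y, A x y := by
      rw [Finset.sum_mul, Finset.sum_div, ← Finset.sum_add_distrib, ← Finset.sum_sub_distrib]
      refine Finset.sum_congr rfl (fun y _ => ?_)
      ring
    have e2 : wu A (k + 1) x / c = wu A 1 x := by
      rw [hc]
      field_simp
    calc ∑ y, A x y * Real.log (wu A k y)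
        ≤ ∑ y, A x y * (Real.log c + wu A k y / c - 1) :=
          Finset.sum_le_sum (fun y _ => hterm y)
      _ = wu A 1 x * Real.log c := by
          rw [e1, ← wu_one, ← wu_succ, e2]
          ring
      _ = wu A 1 x * (Real.log (wu A (k + 1) x) - Real.log (wu A 1 x)) := by
          rw [hc, Real.log_div hu1.ne' hpos.ne']

/-- The inequality of Blakley and Roy for a symmetric matrix with nonnegative entries:
`(1^T A 1)^(k+1) ≤ (1^T A^(k+1) 1) n^k`. -/
lemma blakley_roy [Nonempty W] (A : W → W → ℝ) (hA0 : ∀ x y, 0 ≤ A x y)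
    (hsymm : ∀ x y, A x y = A y x) (k : ℕ) :
    (∑ x, wu A 1 x) ^ (k + 1) ≤ (∑ x, wu A (k + 1) x) * (Fintype.card W : ℝ) ^ k := by
  have hnpos : (0 : ℝ) < (Fintype.card W : ℝ) := by exact_mod_cast Fintype.card_pos
  have hd0 : ∀ x, 0 ≤ wu A 1 x := wu_nonneg A hA0 1
  have hm0 : 0 ≤ ∑ x, wu A 1 x := Finset.sum_nonneg (fun x _ => hd0 x)
  have hWk0 : 0 ≤ ∑ x, wu A (k + 1) x :=
    Finset.sum_nonneg (fun x _ => wu_nonneg A hA0 (k + 1) x)
  rcases hm0.eq_or_lt with h0 | hmpos
  · rw [← h0, zero_pow (Nat.succ_ne_zero k)]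
    exact mul_nonneg hWk0 (pow_nonneg hnpos.le k)
  · obtain ⟨l, hl⟩ : ∃ l : ℝ, l = (∑ x, wu A 1 x) / (Fintype.card W : ℝ) := ⟨_, rfl⟩
    have hlpos : 0 < l := by
      rw [hl]
      exact div_pos hmpos hnpos
    have hL : ∀ j : ℕ, (j : ℝ) * (∑ x, wu A 1 x * Real.log (wu A 1 x))
        ≤ ∑ x, wu A 1 x * Real.log (wu A j x) := by
      intro j
      induction j with
      | zero => simp [wu_zero]
      | succ j ih =>
        have hstep : ∑ x, wu A 1 x * Real.log (wu A j x)
            ≤ ∑ x, wu A 1 x * (Real.log (wu A (j + 1) x) - Real.log (wu A 1 x)) := by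
          calc ∑ x, wu A 1 x * Real.log (wu A j x)
              = ∑ y, ∑ x, A x y * Real.log (wu A j y) := by
                refine Finset.sum_congr rfl (fun y _ => ?_)
                rw [← Finset.sum_mul, wu_one]
                congr 1
                exact Finset.sum_congr rfl (fun x _ => hsymm y x)
            _ = ∑ x, ∑ y, A x y * Real.log (wu A j y) := Finset.sum_comm
            _ ≤ _ := Finset.sum_le_sum (fun x _ => wu_log_step A hA0 hsymm j x)
        have e : ∑ x, wu A 1 x * (Real.log (wu A (j + 1) x) - Real.log (wu A 1 x))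
            = ∑ x, wu A 1 x * Real.log (wu A (j + 1) x)
              - ∑ x, wu A 1 x * Real.log (wu A 1 x) := by
          rw [← Finset.sum_sub_distrib]
          exact Finset.sum_congr rfl (fun x _ => by ring)
        rw [e] at hstep
        push_cast
        linarith
    have hS : (∑ x, wu A 1 x) * Real.log l ≤ ∑ x, wu A 1 x * Real.log (wu A 1 x) := by
      have hterm : ∀ x, wu A 1 x - l
          ≤ wu A 1 x * Real.log (wu A 1 x) - wu A 1 x * Real.log l := by
        intro x
        rcases (hd0 x).eq_or_lt with h0 | hp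
        · rw [← h0, zero_mul, zero_mul]
          linarith
        · have h := Real.log_le_sub_one_of_pos (div_pos hlpos hp)
          rw [Real.log_div hlpos.ne' hp.ne'] at h
          have h2 : wu A 1 x * (Real.log l - Real.log (wu A 1 x))
              ≤ wu A 1 x * (l / wu A 1 x - 1) := mul_le_mul_of_nonneg_left h hp.le
          have h3 : wu A 1 x * (l / wu A 1 x - 1) = l - wu A 1 x := by
            field_simp
          have h4 : wu A 1 x * (Real.log l - Real.log (wu A 1 x))
              = wu A 1 x * Real.log l - wu A 1 x * Real.log (wu A 1 x) := by ring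
          linarith
      have hsum := Finset.sum_le_sum (fun x (_ : x ∈ Finset.univ) => hterm x)
      rw [Finset.sum_sub_distrib, Finset.sum_sub_distrib, ← Finset.sum_mul] at hsum
      have e1 : ∑ _x : W, l = (Fintype.card W : ℝ) * l := by
        rw [Finset.sum_const, Finset.card_univ, nsmul_eq_mul]
      have e2 : (Fintype.card W : ℝ) * l = ∑ x, wu A 1 x := by
        rw [hl]
        field_simp
      rw [e1, e2] at hsum
      linarith
    have hW : ∑ x, wu A (k + 1) x = ∑ x, wu A 1 x * wu A k x := by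
      rw [wu_inner A hsymm 1 k, add_comm]
    have hterm : ∀ x, l ^ k * (wu A 1 x + wu A 1 x * Real.log (wu A k x)
          - (k : ℝ) * Real.log l * wu A 1 x)
        ≤ wu A 1 x * wu A k x := by
      intro x
      rcases (hd0 x).eq_or_lt with h0 | hp
      · rw [← h0]
        simp
      · have hu : 0 < wu A k x := wu_pos A hA0 hsymm k x hp
        have hlk : 0 < l ^ k := pow_pos hlpos k
        have h := Real.log_le_sub_one_of_pos (div_pos hu hlk)
        rw [Real.log_div hu.ne' hlk.ne', Real.log_pow] at h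
        have h3 : 1 + Real.log (wu A k x) - (k : ℝ) * Real.log l ≤ wu A k x / l ^ k := by
          linarith
        have h2 : l ^ k * (1 + Real.log (wu A k x) - (k : ℝ) * Real.log l) ≤ wu A k x := by
          calc l ^ k * (1 + Real.log (wu A k x) - (k : ℝ) * Real.log l)
              ≤ l ^ k * (wu A k x / l ^ k) := mul_le_mul_of_nonneg_left h3 hlk.le
            _ = wu A k x := by field_simp
        calc l ^ k * (wu A 1 x + wu A 1 x * Real.log (wu A k x)
              - (k : ℝ) * Real.log l * wu A 1 x)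
            = wu A 1 x * (l ^ k * (1 + Real.log (wu A k x) - (k : ℝ) * Real.log l)) := by ring
          _ ≤ wu A 1 x * wu A k x := mul_le_mul_of_nonneg_left h2 hp.le
    have hsum := Finset.sum_le_sum (fun x (_ : x ∈ Finset.univ) => hterm x)
    rw [← hW, ← Finset.mul_sum, Finset.sum_sub_distrib, Finset.sum_add_distrib,
      ← Finset.mul_sum] at hsum
    have hLk := hL k
    have hlk : 0 < l ^ k := pow_pos hlpos k
    have hkey : l ^ k * (∑ x, wu A 1 x) ≤ ∑ x, wu A (k + 1) x := by
      refine le_trans (mul_le_mul_of_nonneg_left ?_ hlk.le) hsum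
      have hk0 : (0 : ℝ) ≤ (k : ℝ) := Nat.cast_nonneg k
      nlinarith [mul_le_mul_of_nonneg_left hS hk0]
    have e5 : l ^ k * (∑ x, wu A 1 x)
        = (∑ x, wu A 1 x) ^ (k + 1) / (Fintype.card W : ℝ) ^ k := by
      rw [hl, div_pow, pow_succ]
      ring
    rw [e5, div_le_iff₀ (pow_pos hnpos k)] at hkey
    exact hkey

end Walks

lemma pathHom_snoc {W : Type} (G : SimpleGraph W) (k : ℕ) (ψ : Fin (k + 1) → W) (w : W) :
    (∀ a b : Fin (k + 2), (SimpleGraph.pathGraph (k + 2)).Adj a b →
        G.Adj ((Fin.snoc ψ w : Fin (k + 2) → W) a) ((Fin.snoc ψ w : Fin (k + 2) → W) b))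
      ↔ (∀ a b : Fin (k + 1), (SimpleGraph.pathGraph (k + 1)).Adj a b → G.Adj (ψ a) (ψ b))
          ∧ G.Adj (ψ (Fin.last k)) w := by
  constructor
  · intro h
    refine ⟨fun a b hab => ?_, ?_⟩
    · have h1 := h a.castSucc b.castSucc (by
        rw [SimpleGraph.pathGraph_adj] at hab ⊢
        simpa using hab)
      simpa using h1
    · have h1 := h (Fin.last k).castSucc (Fin.last (k + 1)) (by
        rw [SimpleGraph.pathGraph_adj]
        left
        simp)
      simpa using h1
  · rintro ⟨h1, h2⟩ a b hab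
    rw [SimpleGraph.pathGraph_adj] at hab
    induction a using Fin.lastCases with
    | last =>
      induction b using Fin.lastCases with
      | last => simp at hab
      | cast b =>
        have hb : b = Fin.last k := by
          apply Fin.ext
          simp at hab ⊢
          omega
        subst hb
        simpa using h2.symm
    | cast a =>
      induction b using Fin.lastCases with
      | last =>
        have ha : a = Fin.last k := by
          apply Fin.ext
          simp at hab ⊢
          omega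
        subst ha
        simpa using h2
      | cast b =>
        have h3 := h1 a b (by
          rw [SimpleGraph.pathGraph_adj]
          simpa using hab)
        simpa using h3

open Classical in
/-- Sums over the homomorphisms from the path with `k` edges of a function of the two end
values, in terms of the `k`-th power of the adjacency matrix. -/
lemma sum_pathHom {W : Type} [Fintype W] (G : SimpleGraph W) (k : ℕ) (f : W → W → ℝ) :
    ∑ φ : Fin (k + 1) → W,
        (if (∀ a b, (SimpleGraph.pathGraph (k + 1)).Adj a b → G.Adj (φ a) (φ b))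
          then f (φ 0) (φ (Fin.last k)) else 0)
      = ∑ x, ∑ y, wm (fun x y => if G.Adj x y then (1 : ℝ) else 0) k x y * f x y := by
  induction k generalizing f with
  | zero =>
    have hcond : ∀ φ : Fin 1 → W,
        (∀ a b, (SimpleGraph.pathGraph 1).Adj a b → G.Adj (φ a) (φ b)) := by
      intro φ a b hab
      rw [SimpleGraph.pathGraph_adj] at hab
      have ha := a.isLt
      have hb := b.isLt
      omega
    have e1 : ∀ φ : Fin 1 → W,
        (if (∀ a b, (SimpleGraph.pathGraph 1).Adj a b → G.Adj (φ a) (φ b))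
          then f (φ 0) (φ (Fin.last 0)) else 0) = f (φ 0) (φ 0) := by
      intro φ
      rw [if_pos (hcond φ)]
      rfl
    rw [Finset.sum_congr rfl (fun φ _ => e1 φ)]
    rw [← (Equiv.funUnique (Fin 1) W).symm.sum_comp (fun φ : Fin 1 → W => f (φ 0) (φ 0))]
    refine Finset.sum_congr rfl (fun x _ => ?_)
    simp [wm_zero]
  | succ k ih =>
    have e1 : ∀ (w : W) (ψ : Fin (k + 1) → W),
        (if (∀ a b, (SimpleGraph.pathGraph (k + 1 + 1)).Adj a b →
              G.Adj ((Fin.snoc ψ w : Fin (k + 2) → W) a) ((Fin.snoc ψ w : Fin (k + 2) → W) b))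
          then f ((Fin.snoc ψ w : Fin (k + 2) → W) 0)
            ((Fin.snoc ψ w : Fin (k + 2) → W) (Fin.last (k + 1))) else 0)
        = (if (∀ a b, (SimpleGraph.pathGraph (k + 1)).Adj a b → G.Adj (ψ a) (ψ b))
            then (if G.Adj (ψ (Fin.last k)) w then (1 : ℝ) else 0) * f (ψ 0) w else 0) := by
      intro w ψ
      have h0 : (Fin.snoc ψ w : Fin (k + 2) → W) 0 = ψ 0 :=
        Fin.snoc_castSucc (α := fun _ => W) w ψ 0
      have hl : (Fin.snoc ψ w : Fin (k + 2) → W) (Fin.last (k + 1)) = w :=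
        Fin.snoc_last (α := fun _ => W) w ψ
      rw [h0, hl]
      by_cases hψ : (∀ a b, (SimpleGraph.pathGraph (k + 1)).Adj a b → G.Adj (ψ a) (ψ b))
      · by_cases hw : G.Adj (ψ (Fin.last k)) w
        · rw [if_pos ((pathHom_snoc G k ψ w).mpr ⟨hψ, hw⟩), if_pos hψ, if_pos hw, one_mul]
        · rw [if_neg (fun h => hw ((pathHom_snoc G k ψ w).mp h).2), if_pos hψ, if_neg hw,
            zero_mul]
      · rw [if_neg (fun h => hψ ((pathHom_snoc G k ψ w).mp h).1), if_neg hψ]
    calc ∑ φ : Fin (k + 1 + 1) → W,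
          (if (∀ a b, (SimpleGraph.pathGraph (k + 1 + 1)).Adj a b → G.Adj (φ a) (φ b))
            then f (φ 0) (φ (Fin.last (k + 1))) else 0)
        = ∑ q : W × (Fin (k + 1) → W),
            (if (∀ a b, (SimpleGraph.pathGraph (k + 1 + 1)).Adj a b →
                  G.Adj ((Fin.snoc q.2 q.1 : Fin (k + 2) → W) a)
                    ((Fin.snoc q.2 q.1 : Fin (k + 2) → W) b))
              then f ((Fin.snoc q.2 q.1 : Fin (k + 2) → W) 0)
                ((Fin.snoc q.2 q.1 : Fin (k + 2) → W) (Fin.last (k + 1))) else 0) :=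
          ((Fin.snocEquiv (fun _ : Fin (k + 2) => W)).sum_comp _).symm
      _ = ∑ w : W, ∑ ψ : Fin (k + 1) → W,
            (if (∀ a b, (SimpleGraph.pathGraph (k + 1)).Adj a b → G.Adj (ψ a) (ψ b))
              then (if G.Adj (ψ (Fin.last k)) w then (1 : ℝ) else 0) * f (ψ 0) w else 0) := by
          rw [Fintype.sum_prod_type]
          exact Finset.sum_congr rfl (fun w _ => Finset.sum_congr rfl (fun ψ _ => e1 w ψ))
      _ = ∑ ψ : Fin (k + 1) → W,
            (if (∀ a b, (SimpleGraph.pathGraph (k + 1)).Adj a b → G.Adj (ψ a) (ψ b))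
              then (∑ w : W, (if G.Adj (ψ (Fin.last k)) w then (1 : ℝ) else 0) * f (ψ 0) w)
              else 0) := by
          rw [Finset.sum_comm]
          refine Finset.sum_congr rfl (fun ψ _ => ?_)
          by_cases hψ : (∀ a b, (SimpleGraph.pathGraph (k + 1)).Adj a b → G.Adj (ψ a) (ψ b))
          · simp only [if_pos hψ]
          · simp only [if_neg hψ, Finset.sum_const_zero]
      _ = ∑ x, ∑ z, wm (fun x y => if G.Adj x y then (1 : ℝ) else 0) k x z
            * (∑ w : W, (if G.Adj z w then (1 : ℝ) else 0) * f x w) :=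
          ih (fun x z => ∑ w : W, (if G.Adj z w then (1 : ℝ) else 0) * f x w)
      _ = ∑ x, ∑ y, wm (fun x y => if G.Adj x y then (1 : ℝ) else 0) (k + 1) x y * f x y := by
          refine Finset.sum_congr rfl (fun x _ => ?_)
          calc ∑ z, wm (fun x y => if G.Adj x y then (1 : ℝ) else 0) k x z
                * (∑ w : W, (if G.Adj z w then (1 : ℝ) else 0) * f x w)
              = ∑ z, ∑ w, wm (fun x y => if G.Adj x y then (1 : ℝ) else 0) k x z
                  * (if G.Adj z w then (1 : ℝ) else 0) * f x w := by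
                refine Finset.sum_congr rfl (fun z _ => ?_)
                rw [Finset.mul_sum]
                exact Finset.sum_congr rfl (fun w _ => (mul_assoc _ _ _).symm)
            _ = ∑ w, ∑ z, wm (fun x y => if G.Adj x y then (1 : ℝ) else 0) k x z
                  * (if G.Adj z w then (1 : ℝ) else 0) * f x w := Finset.sum_comm
            _ = ∑ y, wm (fun x y => if G.Adj x y then (1 : ℝ) else 0) (k + 1) x y * f x y := by
                refine Finset.sum_congr rfl (fun w _ => ?_)
                rw [wm_succ, Finset.sum_mul]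

end Vale.Agent.Lib.P050
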