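import Vale.Agent.Lib.P050.TwinPaths

namespace Vale.Agent.Lib.P050

open Finset

lemma pathGraph_sum_aux (k : ℕ) :
    ∑ a : Fin (k + 1), ∑ b : Fin (k + 1), (if a.val + 1 = b.val then (1 : ℝ) else 0)
      = (k : ℝ) := by
  rw [Fin.sum_univ_castSucc]
  have h1 : ∀ i : Fin k, ∑ b : Fin (k + 1),
      (if (i.castSucc : Fin (k + 1)).val + 1 = b.val then (1 : ℝ) else 0) = 1 := by
    intro i
    rw [Finset.sum_eq_single i.succ]
    · simp
    · intro b _ hb
      rw [if_neg]
      intro h
      apply hb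
      apply Fin.ext
      simp at h ⊢
      omega
    · intro h
      exact absurd (Finset.mem_univ _) h
  have h2 : ∑ b : Fin (k + 1), (if (Fin.last k).val + 1 = b.val then (1 : ℝ) else 0) = 0 := by
    apply Finset.sum_eq_zero
    intro b _
    rw [if_neg]
    have := b.isLt
    simp
    omega
  rw [Finset.sum_congr rfl (fun i _ => h1 i), h2]
  simp

/-- The path on `k + 1` vertices has `k` edges. -/
lemma pathGraph_ncard_edgeSet (k : ℕ) : (SimpleGraph.pathGraph (k + 1)).edgeSet.ncard = k := by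
  classical
  have h := two_mul_ncard_edgeSet (SimpleGraph.pathGraph (k + 1))
  have e : ∀ a b : Fin (k + 1),
      (if (SimpleGraph.pathGraph (k + 1)).Adj a b then (1 : ℝ) else 0)
        = (if a.val + 1 = b.val then (1 : ℝ) else 0)
          + (if b.val + 1 = a.val then (1 : ℝ) else 0) := by
    intro a b
    by_cases h1 : a.val + 1 = b.val
    · have h2 : ¬ (b.val + 1 = a.val) := by omega
      rw [if_pos (SimpleGraph.pathGraph_adj.mpr (Or.inl h1)), if_pos h1, if_neg h2, add_zero]
    · by_cases h2 : b.val + 1 = a.val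
      · rw [if_pos (SimpleGraph.pathGraph_adj.mpr (Or.inr h2)), if_neg h1, if_pos h2, zero_add]
      · rw [if_neg (fun hh => (SimpleGraph.pathGraph_adj.mp hh).elim h1 h2), if_neg h1,
          if_neg h2, add_zero]
  have h3 : (∑ a : Fin (k + 1), ∑ b : Fin (k + 1),
      (if (SimpleGraph.pathGraph (k + 1)).Adj a b then (1 : ℝ) else 0)) = 2 * (k : ℝ) := by
    refine (Finset.sum_congr rfl (fun a _ => Finset.sum_congr rfl (fun b _ => e a b))).trans ?_
    simp only [Finset.sum_add_distrib]
    rw [pathGraph_sum_aux k]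
    rw [Finset.sum_comm, pathGraph_sum_aux k]
    ring
  have h4 : ((SimpleGraph.pathGraph (k + 1)).edgeSet.ncard : ℝ) = (k : ℝ) := by
    have h5 := h.trans h3
    linarith
  exact_mod_cast h4

lemma sum_subtype_ite {α : Type} [Fintype α] (p : α → Prop) [DecidablePred p] (g : α → ℝ) :
    ∑ a : {a // p a}, g a.1 = ∑ a, if p a then g a else 0 := by
  rw [← Finset.sum_filter]
  exact (Finset.sum_subtype (Finset.univ.filter p) (by simp) g).symm

open Classical in
/-- The number of homomorphisms from the path with `k` edges, as a sum of entries of the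
`k`-th power of the adjacency matrix. -/
lemma card_pathHom {W : Type} [Fintype W] (G : SimpleGraph W) (k : ℕ) :
    (homCount (SimpleGraph.pathGraph (k + 1)) G : ℝ)
      = ∑ x, wu (fun x y => if G.Adj x y then (1 : ℝ) else 0) k x := by
  unfold homCount
  rw [Nat.card_eq_fintype_card]
  have h3 : (Fintype.card {f : Fin (k + 1) → W //
        ∀ u v, (SimpleGraph.pathGraph (k + 1)).Adj u v → G.Adj (f u) (f v)} : ℝ)
      = ∑ _a : {f : Fin (k + 1) → W //
        ∀ u v, (SimpleGraph.pathGraph (k + 1)).Adj u v → G.Adj (f u) (f v)}, (1 : ℝ) := by simp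
  rw [h3]
  refine (sum_subtype_ite (fun f : Fin (k + 1) → W =>
    ∀ u v, (SimpleGraph.pathGraph (k + 1)).Adj u v → G.Adj (f u) (f v))
    (fun _ => (1 : ℝ))).trans ?_
  refine (sum_pathHom G k (fun _ _ => (1 : ℝ))).trans ?_
  exact Finset.sum_congr rfl (fun x _ => Finset.sum_congr rfl (fun y _ => mul_one _))

open Classical in
/-- Double sums over pairs of homomorphisms from the path with `k` edges. -/
lemma sum_sum_pathHom {W : Type} [Fintype W] (G : SimpleGraph W) (k : ℕ)
    (f : W → W → W → W → ℝ) :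
    ∑ φ : {φ : Fin (k + 1) → W //
          ∀ a b, (SimpleGraph.pathGraph (k + 1)).Adj a b → G.Adj (φ a) (φ b)},
        ∑ ψ : {ψ : Fin (k + 1) → W //
          ∀ a b, (SimpleGraph.pathGraph (k + 1)).Adj a b → G.Adj (ψ a) (ψ b)},
          f (φ.1 0) (φ.1 (Fin.last k)) (ψ.1 0) (ψ.1 (Fin.last k))
      = ∑ x, ∑ y, wm (fun x y => if G.Adj x y then (1 : ℝ) else 0) k x y
          * (∑ x', ∑ y', wm (fun x y => if G.Adj x y then (1 : ℝ) else 0) k x' y'
              * f x y x' y') := by
  have inner : ∀ φ : Fin (k + 1) → W,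
      ∑ ψ : {ψ : Fin (k + 1) → W //
          ∀ a b, (SimpleGraph.pathGraph (k + 1)).Adj a b → G.Adj (ψ a) (ψ b)},
          f (φ 0) (φ (Fin.last k)) (ψ.1 0) (ψ.1 (Fin.last k))
        = ∑ x', ∑ y', wm (fun x y => if G.Adj x y then (1 : ℝ) else 0) k x' y'
              * f (φ 0) (φ (Fin.last k)) x' y' := by
    intro φ
    refine (sum_subtype_ite (fun ψ : Fin (k + 1) → W =>
      ∀ a b, (SimpleGraph.pathGraph (k + 1)).Adj a b → G.Adj (ψ a) (ψ b))
      (fun ψ => f (φ 0) (φ (Fin.last k)) (ψ 0) (ψ (Fin.last k)))).trans ?_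
    exact sum_pathHom G k (fun x' y' => f (φ 0) (φ (Fin.last k)) x' y')
  refine (Finset.sum_congr rfl (fun φ _ => inner φ.1)).trans ?_
  refine (sum_subtype_ite (fun φ : Fin (k + 1) → W =>
    ∀ a b, (SimpleGraph.pathGraph (k + 1)).Adj a b → G.Adj (φ a) (φ b))
    (fun φ => ∑ x', ∑ y', wm (fun x y => if G.Adj x y then (1 : ℝ) else 0) k x' y'
              * f (φ 0) (φ (Fin.last k)) x' y')).trans ?_
  exact sum_pathHom G k (fun x y =>
    ∑ x', ∑ y', wm (fun x y => if G.Adj x y then (1 : ℝ) else 0) k x' y' * f x y x' y')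

lemma quad_sum {W : Type} [Fintype W] [DecidableEq W] (A : W → W → ℝ) (k : ℕ) :
    ∑ x, ∑ y, wm A k x y * (∑ x', ∑ y', wm A k x' y' * (A x x' * A y y'))
      = ∑ x, ∑ y', wm A (k + 1) x y' ^ 2 := by
  refine Finset.sum_congr rfl (fun x _ => ?_)
  calc ∑ y, wm A k x y * (∑ x', ∑ y', wm A k x' y' * (A x x' * A y y'))
      = ∑ y, ∑ y', (wm A k x y * A y y') * (∑ x', A x x' * wm A k x' y') := by
        refine Finset.sum_congr rfl (fun y _ => ?_)
        rw [Finset.sum_comm, Finset.mul_sum]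
        refine Finset.sum_congr rfl (fun y' _ => ?_)
        rw [Finset.mul_sum, Finset.mul_sum]
        refine Finset.sum_congr rfl (fun x' _ => ?_)
        ring
    _ = ∑ y', ∑ y, (wm A k x y * A y y') * (∑ x', A x x' * wm A k x' y') := Finset.sum_comm
    _ = ∑ y', wm A (k + 1) x y' ^ 2 := by
        refine Finset.sum_congr rfl (fun y' _ => ?_)
        rw [← Finset.sum_mul, ← wm_succ, wm_succ_left, sq]

/-- The path with `k + 1` edges satisfies Sidorenko's inequality (the classical inequality of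
Blakley and Roy). -/
lemma sidorenko_pathGraph (k : ℕ) : SidorenkoIneq (SimpleGraph.pathGraph (k + 2)) := by
  intro W _ _ G
  classical
  have := Fintype.ofFinite W
  rw [pathGraph_ncard_edgeSet (k + 1), card_pathHom G (k + 1), two_mul_ncard_edgeSet G,
    Nat.card_eq_fintype_card (α := Fin (k + 2)), Fintype.card_fin, Nat.card_eq_fintype_card]
  have hnpos : (0 : ℝ) < (Fintype.card W : ℝ) := by exact_mod_cast Fintype.card_pos
  have hA0 : ∀ x y : W, (0 : ℝ) ≤ (fun x y => if G.Adj x y then (1 : ℝ) else 0) x y := by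
    intro x y
    dsimp only
    split_ifs <;> norm_num
  have hsymm : ∀ x y : W, (fun x y => if G.Adj x y then (1 : ℝ) else 0) x y
      = (fun x y => if G.Adj x y then (1 : ℝ) else 0) y x :=
    fun x y => if_congr (G.adj_comm x y) rfl rfl
  have hbr := blakley_roy (fun x y => if G.Adj x y then (1 : ℝ) else 0) hA0 hsymm k
  have h1 : ∑ x, ∑ y, (if G.Adj x y then (1 : ℝ) else 0)
      = ∑ x, wu (fun x y => if G.Adj x y then (1 : ℝ) else 0) 1 x :=
    Finset.sum_congr rfl (fun x _ =>
      (wu_one (fun x y => if G.Adj x y then (1 : ℝ) else 0) x).symm)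
  rw [h1, div_pow, div_le_div_iff₀ (by positivity) (by positivity)]
  calc (∑ x, wu (fun x y => if G.Adj x y then (1 : ℝ) else 0) 1 x) ^ (k + 1)
        * (Fintype.card W : ℝ) ^ (k + 2)
      ≤ ((∑ x, wu (fun x y => if G.Adj x y then (1 : ℝ) else 0) (k + 1) x)
          * (Fintype.card W : ℝ) ^ k) * (Fintype.card W : ℝ) ^ (k + 2) :=
        mul_le_mul_of_nonneg_right hbr (by positivity)
    _ = (∑ x, wu (fun x y => if G.Adj x y then (1 : ℝ) else 0) (k + 1) x)
          * ((Fintype.card W : ℝ) ^ 2) ^ (k + 1) := by ring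

/-- The domination inequality for the path with `k + 1` edges and its two end vertices. -/
lemma dom_pathGraph (k : ℕ) {W : Type} [Finite W] [Nonempty W] (G : SimpleGraph W) :
    (homCount (SimpleGraph.pathGraph (k + 2)) G : ℝ) ^ 2
        * ((2 * (G.edgeSet.ncard : ℝ)) / (Nat.card W : ℝ) ^ 2)
            ^ ({0, Fin.last (k + 1)} : Set (Fin (k + 2))).ncard
      ≤ (homCount (gprod (⊤ : SimpleGraph Bool) (SimpleGraph.pathGraph (k + 2))
          {0, Fin.last (k + 1)}) G : ℝ) := by
  classical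
  have := Fintype.ofFinite W
  have hR : ({0, Fin.last (k + 1)} : Set (Fin (k + 2))).Nonempty := Set.insert_nonempty _ _
  have h0l : (0 : Fin (k + 2)) ≠ Fin.last (k + 1) := by
    intro h
    have h' := congrArg Fin.val h
    simp at h'
  rw [homCount_gprod _ _ _ hR G, homCount_top_bool, Set.ncard_pair h0l]
  have e1 : ∀ φ ψ : {φ : Fin (k + 2) → W //
        ∀ a b, (SimpleGraph.pathGraph (k + 2)).Adj a b → G.Adj (φ a) (φ b)},
      (if (homGraph (SimpleGraph.pathGraph (k + 2)) {0, Fin.last (k + 1)} hR G).Adj φ ψ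
        then (1 : ℝ) else 0)
        = (if G.Adj (φ.1 0) (ψ.1 0) then (1 : ℝ) else 0)
          * (if G.Adj (φ.1 (Fin.last (k + 1))) (ψ.1 (Fin.last (k + 1))) then (1 : ℝ) else 0) := by
    intro φ ψ
    have hiff : (homGraph (SimpleGraph.pathGraph (k + 2)) {0, Fin.last (k + 1)} hR G).Adj φ ψ
        ↔ G.Adj (φ.1 0) (ψ.1 0)
          ∧ G.Adj (φ.1 (Fin.last (k + 1))) (ψ.1 (Fin.last (k + 1))) := by
      constructor
      · intro h
        exact ⟨h 0 (by simp), h (Fin.last (k + 1)) (by simp)⟩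
      · rintro ⟨h0, h2⟩ r hr
        rcases hr with rfl | hr
        · exact h0
        · rw [Set.mem_singleton_iff] at hr
          subst hr
          exact h2
    by_cases h0 : G.Adj (φ.1 0) (ψ.1 0)
    · by_cases h2 : G.Adj (φ.1 (Fin.last (k + 1))) (ψ.1 (Fin.last (k + 1)))
      · rw [if_pos (hiff.mpr ⟨h0, h2⟩), if_pos h0, if_pos h2, mul_one]
      · rw [if_neg (fun h => h2 (hiff.mp h).2), if_neg h2, mul_zero]
    · rw [if_neg (fun h => h0 (hiff.mp h).1), if_neg h0, zero_mul]
  have h2 : 2 * ((homGraph (SimpleGraph.pathGraph (k + 2)) {0, Fin.last (k + 1)} hR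
        G).edgeSet.ncard : ℝ)
      = ∑ x, ∑ y, wm (fun x y => if G.Adj x y then (1 : ℝ) else 0) (k + 2) x y ^ 2 := by
    refine (two_mul_ncard_edgeSet _).trans ?_
    refine (Finset.sum_congr rfl (fun φ _ => Finset.sum_congr rfl (fun ψ _ => e1 φ ψ))).trans ?_
    refine (sum_sum_pathHom G (k + 1) (fun x y x' y' =>
      (if G.Adj x x' then (1 : ℝ) else 0) * (if G.Adj y y' then (1 : ℝ) else 0))).trans ?_
    exact quad_sum (fun x y => if G.Adj x y then (1 : ℝ) else 0) (k + 1)
  rw [h2, card_pathHom G (k + 1), two_mul_ncard_edgeSet G, Nat.card_eq_fintype_card]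
  have hnpos : (0 : ℝ) < (Fintype.card W : ℝ) := by exact_mod_cast Fintype.card_pos
  have hsymm : ∀ x y : W, (fun x y => if G.Adj x y then (1 : ℝ) else 0) x y
      = (fun x y => if G.Adj x y then (1 : ℝ) else 0) y x :=
    fun x y => if_congr (G.adj_comm x y) rfl rfl
  have key := twin_walk_ineq (fun x y => if G.Adj x y then (1 : ℝ) else 0) hsymm (k + 1)
  have h1 : ∑ x, ∑ y, (if G.Adj x y then (1 : ℝ) else 0)
      = ∑ x, wu (fun x y => if G.Adj x y then (1 : ℝ) else 0) 1 x :=
    Finset.sum_congr rfl (fun x _ =>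
      (wu_one (fun x y => if G.Adj x y then (1 : ℝ) else 0) x).symm)
  rw [h1, div_pow, ← mul_div_assoc, div_le_iff₀ (by positivity)]
  calc _ ≤ _ := key
    _ = _ := by ring

/-- Two copies of `H` with every vertex joined to its twin by a path with `k + 1` edges. -/
theorem gprod_pathGraph_sidorenko {V : Type} [Finite V] [Nonempty V] (H : SimpleGraph V)
    (k : ℕ) (hH : SidorenkoIneq H) :
    SidorenkoIneq (gprod H (SimpleGraph.pathGraph (k + 2)) {0, Fin.last (k + 1)}) :=
  gprod_sidorenko H (SimpleGraph.pathGraph (k + 2)) {0, Fin.last (k + 1)}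
    (Set.insert_nonempty _ _) hH (sidorenko_pathGraph k) (fun _ _ _ G => dom_pathGraph k G)

end Vale.Agent.Lib.P050
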